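import Vale.Agent.P097.H500.Newton

attribute [-instance] ProperSMul.toContinuousSMul IsTopologicalTorsor.toContinuousSMul IdemSemiring.toCanonicallyOrderedAdd IdemSemiring.toMulLeftMono IdemSemiring.toMulRightMono AddQuantale.instAddLeftMono AddQuantale.instAddRightMono Quantale.instMulLeftMono Quantale.instMulRightMono FiniteDimensional.rclike_to_real IsScalarTower.complexToReal FiniteDimensional.complexToReal

set_option linter.all false

/-! # P097, uniform regularity: the iteration, and the statement `StR` -/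

namespace Vale.Agent.P097.H500

open Complex Filter Topology Vale.Agent.P097.Reg Vale.Agent.P097.Reg.R13
open scoped ComplexConjugate ContDiff

lemma strip_of_chain {h : ℝ → ℝ} {M0 C K Mb β0 E0 : ℝ} (hMb : Mb + 2 ≤ M0) (hMb1 : 1 ≤ Mb)
    (hC : 1 ≤ C) (hK1 : 1 ≤ K) (hK : ∀ k : ℕ, ((k : ℝ) + 1) ^ 6 ≤ K * (5 / 4 : ℝ) ^ k)
    (hE : 0 < E0) (hb : 0 < β0) (hb1 : β0 ≤ 1)
    (hL : 1000000 * C ^ 2 * K * (1 + Real.log (2 / β0)) ≤ -Real.log E0)
    (f : ℕ → Sg) (h1 : ∀ k, Gd h Mb β0 E0 k (f k))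
    (h2 : ∀ k, ∀ ψ ∈ (f (k + 1)).T.D,
      ψ ∈ (f k).T.D ∧ ‖(f (k + 1)).T.G ψ - (f k).T.G ψ‖ ≤ (R13.EE E0 k) ^ (ee k / C)) :
    ∃ H : ℂ → ℂ, DifferentiableOn ℂ H {z : ℂ | |z.im| < β0 / (4 * M0)} ∧
      (∀ z : ℂ, |z.im| < β0 / (4 * M0) → ‖H z‖ ≤ M0 + ∑' k : ℕ, Real.exp (-(k : ℝ))) ∧
      ∀ x : ℝ, H x = h x := by
  have hβ2 : ∀ k, β0 / 2 ≤ (f k).β := by
    intro k
    have := pp_ge k
    rw [(h1 k).2.1]; (clear * - hb this; nlinarith)
  have hM1 : ∀ k, (f k).M ≤ M0 := by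
    intro k
    have := sum_ee k
    have := (h1 k).1
    (clear C K hMb1 hC hK1 hK hE hb hb1 hL h2 hβ2; linarith)
  set B : Set ℂ := {z : ℂ | |z.im| < β0 / (4 * M0)} with hB
  have hM0 : 1 ≤ M0 := by linarith only [hMb, hMb1]
  have hr : 0 < β0 / (4 * M0) := by (clear * - hb hM0; positivity)
  have hBo : IsOpen B := isOpen_lt (continuous_abs.comp Complex.continuous_im) continuous_const
  have hsub : ∀ k, B ⊆ (f k).T.D := by
    intro k ψ hψ
    refine ball_sub (f k).T (x0 := ψ.re) (hM1 k) hM0 hb (hβ2 k) ?_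
    rw [Metric.mem_ball, dist_eq_norm]
    have e : ψ - ((ψ.re : ℝ) : ℂ) = (ψ.im : ℂ) * I := by
      apply Complex.ext <;> simp
    rw [e, norm_mul, Complex.norm_I, mul_one, Complex.norm_real]
    exact hψ
  -- the bounds
  have hlogE : Real.log E0 ≤ 0 := by
    have hl : 0 ≤ Real.log (2 / β0) := by
      apply Real.log_nonneg
      rw [le_div_iff₀ hb]; linarith only [hb1]
    have : 0 ≤ 1000000 * C ^ 2 * K * (1 + Real.log (2 / β0)) := by (clear * - hC hK1 hl; positivity)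
    linarith only [hL, this]
  have hE1 : E0 ≤ 1 := by
    by_contra hc
    push Not at hc
    have hl : 0 ≤ Real.log (2 / β0) := by
      apply Real.log_nonneg
      rw [le_div_iff₀ hb]; linarith only [hb1]
    have h3 : 0 < 1000000 * C ^ 2 * K * (1 + Real.log (2 / β0)) := by (clear * - hC hK1 hl; positivity)
    have h4 := Real.log_pos hc
    linarith only [hL, h3, h4]
  have hU : ∀ k, (R13.EE E0 k) ^ (ee k / C) ≤ Real.exp (-(k : ℝ)) := by
    intro k
    have hc := R13.cond hC hK hE hb hb1 hL k (hβ2 k)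
    have hβ1 : (f k).β ≤ 1 := (f k).T.β1
    have hβ0 : 0 < (f k).β := (f k).T.β0
    have h3 : 1 ≤ (1 / (f k).β) ^ C := by
      apply Real.one_le_rpow _ (by linarith only [hC])
      rw [le_div_iff₀ hβ0]; linarith only [hβ1]
    have hp := Real.rpow_pos_of_pos (R13.EE_pos hE k) (ee k / C)
    have h4 : Real.exp (C / ee k ^ 2) * (R13.EE E0 k) ^ (ee k / C) ≤ 1 := by
      refine le_trans ?_ hc
      apply mul_le_mul_of_nonneg_right _ hp.le
      exact le_mul_of_one_le_right (Real.exp_pos _).le h3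
    have h5 : (k : ℝ) ≤ C / ee k ^ 2 := by
      have h6 : C / ee k ^ 2 = 10000 * C * ((k : ℝ) + 1) ^ 4 := by
        unfold ee; field_simp; ring
      rw [h6]
      have hk : (0 : ℝ) ≤ k := Nat.cast_nonneg k
      have h7 : (k : ℝ) + 1 ≤ ((k : ℝ) + 1) ^ 4 := le_self_pow₀ (by linarith only []) (by norm_num)
      nlinarith only [hC, h7]
    have h8 : Real.exp (k : ℝ) * (R13.EE E0 k) ^ (ee k / C) ≤ 1 := by
      refine le_trans ?_ h4
      exact mul_le_mul_of_nonneg_right (Real.exp_le_exp.2 h5) hp.le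
    rw [Real.exp_neg, ← one_div, le_div_iff₀ (Real.exp_pos _), mul_comm]
    exact h8
  have hEE1 : ∀ k, R13.EE E0 k ≤ 1 := by
    intro k
    exact Real.rpow_le_one hE.le hE1 (by positivity)
  have hEk : ∀ k, R13.EE E0 k ≤ Real.exp (-(k : ℝ)) := by
    intro k
    refine le_trans ?_ (hU k)
    have ha : ee k / C ≤ 1 := by
      rw [div_le_one (by linarith only [hC])]
      have := ee_le k
      linarith only [hC, this]
    calc R13.EE E0 k = (R13.EE E0 k) ^ (1 : ℝ) := (Real.rpow_one _).symm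
      _ ≤ (R13.EE E0 k) ^ (ee k / C) :=
        Real.rpow_le_rpow_of_exponent_ge (R13.EE_pos hE k) (hEE1 k) ha
  have hexp : Summable fun k : ℕ => Real.exp (-(k : ℝ)) := Real.summable_exp_neg_nat
  -- the limit
  set F : ℕ → ℂ → ℂ := fun k ψ => (f (k + 1)).T.G ψ - (f k).T.G ψ with hF
  have hFb : ∀ k, ∀ ψ ∈ B, ‖F k ψ‖ ≤ Real.exp (-(k : ℝ)) := fun k ψ hψ =>
    ((h2 k ψ (hsub (k + 1) hψ)).2).trans (hU k)
  have hFd : ∀ k, DifferentiableOn ℂ (F k) B := fun k =>
    ((f (k + 1)).T.dG.mono (hsub (k + 1))).sub ((f k).T.dG.mono (hsub k))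
  have hgd : DifferentiableOn ℂ (fun ψ => (f 0).T.G ψ + ∑' k, F k ψ) B :=
    ((f 0).T.dG.mono (hsub 0)).add
      (Complex.differentiableOn_tsum_of_summable_norm hexp hFd hBo hFb)
  have hlim : ∀ ψ ∈ B, Tendsto (fun n => (f n).T.G ψ) atTop
      (𝓝 ((f 0).T.G ψ + ∑' k, F k ψ)) := by
    intro ψ hψ
    have hs : Summable fun k => F k ψ :=
      Summable.of_norm_bounded hexp (fun k => hFb k ψ hψ)
    have h3 := hs.hasSum.tendsto_sum_nat
    have h4 : ∀ n, ∑ k ∈ Finset.range n, F k ψ = (f n).T.G ψ - (f 0).T.G ψ := by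
      intro n
      simp only [hF]
      exact Finset.sum_range_sub (fun k => (f k).T.G ψ) n
    simp only [h4] at h3
    have h5 := h3.const_add ((f 0).T.G ψ)
    simpa only [add_sub_cancel] using h5
  have hreal : ∀ x : ℝ, (x : ℂ) ∈ B → h x = ((f 0).T.G x + ∑' k, F k x).re := by
    intro x hx
    have h3 : Tendsto (fun n => ((f n).T.G x).re) atTop
        (𝓝 ((f 0).T.G x + ∑' k, F k x).re) :=
      (Complex.continuous_re.tendsto _).comp (hlim x hx)
    have h4 : Tendsto (fun n => ((f n).T.G x).re) atTop (𝓝 (h x)) := by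
      rw [tendsto_iff_norm_sub_tendsto_zero]
      have h5 : Tendsto (fun n : ℕ => Real.exp (-(n : ℝ))) atTop (𝓝 0) :=
        Real.tendsto_exp_neg_atTop_nhds_zero.comp tendsto_natCast_atTop_atTop
      refine squeeze_zero (fun _ => norm_nonneg _) (fun n => ?_) h5
      have h6 := ((h1 n).2.2 x).1
      unfold df at h6
      rw [Real.norm_eq_abs, abs_sub_comm]
      exact h6.trans (hEk n)
    exact tendsto_nhds_unique h4 h3
  have hxB : ∀ x : ℝ, (x : ℂ) ∈ B := by
    intro x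
    show |((x : ℝ) : ℂ).im| < β0 / (4 * M0)
    rw [Complex.ofReal_im, abs_zero]
    exact hr
  refine ⟨fun ψ => (f 0).T.G ψ + ∑' k, F k ψ, hgd, ?_, ?_⟩
  · intro z hz
    have h3 := tsum_of_norm_bounded hexp.hasSum (fun k => hFb k z hz)
    have h4 := (f 0).T.bG z (hsub 0 hz)
    calc ‖(f 0).T.G z + ∑' k, F k z‖ ≤ ‖(f 0).T.G z‖ + ‖∑' k, F k z‖ := norm_add_le _ _
      _ ≤ M0 + ∑' k : ℕ, Real.exp (-(k : ℝ)) := add_le_add (h4.trans (hM1 0)) h3
  · intro x
    have him : ((f 0).T.G x + ∑' k, F k x).im = 0 := by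
      have h3 : Tendsto (fun n => ((f n).T.G x).im) atTop
          (𝓝 ((f 0).T.G x + ∑' k, F k x).im) :=
        (Complex.continuous_im.tendsto _).comp (hlim x (hxB x))
      have h4 : ∀ n, ((f n).T.G x).im = 0 := by
        intro n
        have h5 := (f n).T.cG x ((f n).T.rD x)
        rw [Complex.conj_ofReal] at h5
        exact Complex.conj_eq_iff_im.1 h5.symm
      simp only [h4] at h3
      exact (tendsto_nhds_unique tendsto_const_nhds h3).symm
    apply Complex.ext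
    · rw [Complex.ofReal_re]
      exact (hreal x (hxB x)).symm
    · rw [Complex.ofReal_im]
      exact him

/-- the iteration with uniform constants -/
theorem core_u {C0 c0 : ℝ} (hC0 : 1 ≤ C0) (hc0 : 0 < c0) (CF : ℕ → ℝ) (hCF : ∀ N, 1 ≤ CF N)
    (q0 : ℕ) : ∃ β' M' : ℝ, 0 < β' ∧ 1 ≤ M' ∧ ∀ h : ℝ → ℝ, ContDiff ℝ ∞ h →
      (∀ x, h (x + 2 * Real.pi) = h x) → (∀ x, 2 * c0 ≤ rad h x) →
      (∀ n, q0 ≤ n → Cst h n) → (∀ N, App C0 (CF N) N h) →
      ∃ H : ℂ → ℂ, DifferentiableOn ℂ H {z : ℂ | |z.im| < β'} ∧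
        (∀ z : ℂ, |z.im| < β' → ‖H z‖ ≤ M') ∧ ∀ x : ℝ, H x = h x := by
  obtain ⟨M, hM, κ, hκ, b0, hb0, hB⟩ := exists_base C0 c0 hC0 hc0
  obtain ⟨C, hC, hN⟩ := newton_u hC0 (hCF (2 * 130)) q0 (M + 2) (by linarith only [hM])
  obtain ⟨K, hK1, hK⟩ := exists_K
  set A : ℝ := 1000000 * C ^ 2 * K with hAdef
  have hA1 : 1 ≤ A := by
    have h1 : 1 ≤ C ^ 2 := by nlinarith only [hC]
    have h2 : 1 ≤ C ^ 2 * K := by nlinarith only [h1, hK1]
    rw [hAdef]; linarith
  obtain ⟨N, hNA⟩ := exists_nat_ge (2 * A)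
  have hN1 : 1 ≤ N := by
    have : (1 : ℝ) ≤ N := by linarith only [hA1, hNA]
    exact_mod_cast this
  set CN : ℝ := CF N with hCNdef
  have hCN : 1 ≤ CN := hCF N
  have hlog : Tendsto (fun n : ℕ => Real.log (n : ℝ)) atTop atTop :=
    Real.tendsto_log_atTop.comp tendsto_natCast_atTop_atTop
  obtain ⟨n, hn1, hn2, hn3, hn4⟩ : ∃ n : ℕ, 1 ≤ n ∧ 1 / b0 ≤ (n : ℝ) ∧ 2 * CN / c0 ≤ (n : ℝ) ∧
      A * (1 + Real.log (2 / κ)) + Real.log CN ≤ Real.log n := by
    have e1 := (tendsto_natCast_atTop_atTop (R := ℝ)).eventually_ge_atTop (1 / b0)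
    have e2 := (tendsto_natCast_atTop_atTop (R := ℝ)).eventually_ge_atTop (2 * CN / c0)
    have e3 := hlog.eventually_ge_atTop (A * (1 + Real.log (2 / κ)) + Real.log CN)
    exact ((eventually_ge_atTop 1).and (e1.and (e2.and e3))).exists
  have hn0 : (1 : ℝ) ≤ n := by exact_mod_cast hn1
  have hnpos : (0 : ℝ) < n := by linarith only [hn0]
  set E0 : ℝ := CN / (n : ℝ) ^ N with hE0
  have hE0pos : 0 < E0 := by rw [hE0]; (clear * - hCN hn1; positivity)
  have hE0c : E0 ≤ c0 / 2 := by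
    rw [hE0, div_le_iff₀ (by positivity)]
    have h1 : (n : ℝ) ≤ (n : ℝ) ^ N := le_self_pow₀ hn0 (by omega)
    rw [div_le_iff₀ hc0] at hn3
    calc CN ≤ c0 / 2 * n := by linarith only [hn3]
      _ ≤ c0 / 2 * (n : ℝ) ^ N := mul_le_mul_of_nonneg_left h1 (by linarith only [hc0])
  refine ⟨κ * (1 / n) / (4 * (M + 2)), M + 2 + ∑' k : ℕ, Real.exp (-(k : ℝ)), ?_, ?_, ?_⟩
  · positivity
  · have : 0 ≤ ∑' k : ℕ, Real.exp (-(k : ℝ)) := tsum_nonneg fun k => (Real.exp_pos _).le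
    linarith only [this, hM]
  intro h hs hp hlow hcst hA
  have hpos : ∀ x, 0 < rad h x := fun x => by
    have := hlow x
    linarith only [this, hc0]
  have hN := hN h hs hp hpos hcst (hA (2 * 130))
  obtain ⟨G, hG1, hG2, hG3, hG4, hG5⟩ := hA N n hn1
  rw [← hCNdef, ← hE0] at hG5
  have hrad : ∀ x : ℝ, c0 ≤ (G x + deriv (deriv G) x).re := by
    intro x
    have h1 := hG5 0 (by norm_num) x
    have h2 := hG5 2 le_rfl x
    have h3 := hlow x
    simp only [Function.iterate_zero, id_eq] at h1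
    have e2 : deriv^[2] h x = deriv (deriv h) x := rfl
    have e2' : deriv^[2] G x = deriv (deriv G) x := rfl
    rw [e2, e2'] at h2
    rw [abs_le] at h1 h2
    unfold rad at h3
    rw [add_re]
    linarith only [hE0c, h1, h2, h3]
  obtain ⟨P, T, hTG, -⟩ := hB (1 / n) (by (clear * - hn1; positivity))
    (by rw [div_le_iff₀ hnpos]; rw [div_le_iff₀ hb0] at hn2; linarith only [hn2]) G hG1 hG2 hG3 hG4 hrad
  have hb := T.β0
  have hb1 := T.β1
  have hL : 1000000 * C ^ 2 * K * (1 + Real.log (2 / (κ * (1 / n)))) ≤ -Real.log E0 := by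
    rw [← hAdef]
    have e1 : 2 / (κ * (1 / (n : ℝ))) = (2 / κ) * n := by (clear * - hn1 hκ; field_simp)
    have e2 : Real.log (2 / κ * n) = Real.log (2 / κ) + Real.log n :=
      Real.log_mul (by positivity) (by (clear * - hn1; positivity))
    have e3 : Real.log E0 = Real.log CN - N * Real.log n := by
      rw [hE0, Real.log_div (by positivity) (by positivity), Real.log_pow]
    rw [e1, e2, e3]
    have hl0 : 0 ≤ Real.log (n : ℝ) := Real.log_nonneg hn0
    have h1 : 2 * A * Real.log n ≤ N * Real.log n := mul_le_mul_of_nonneg_right hNA hl0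
    have h2 : Real.log n ≤ A * Real.log n := le_mul_of_one_le_left hl0 hA1
    (clear * - hn4 h1 h2; linarith)
  -- closeness
  have hclose : Close T h E0 := by
    have hdf : df T h = fun x : ℝ => h x - (G x).re := by
      funext x; unfold df; rw [hTG]
    have hh1 : ∀ x, HasDerivAt h (deriv h x) x := fun x =>
      (hs.differentiable (by norm_num) x).hasDerivAt
    have hh2 : ∀ x, HasDerivAt (deriv h) (deriv (deriv h) x) x := fun x =>
      ((contDiff_deriv hs).differentiable (by norm_num) x).hasDerivAt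
    have hG' : Differentiable ℂ (deriv G) := hG1.deriv
    have hg1 : ∀ x : ℝ, HasDerivAt (fun x : ℝ => (G x).re) (deriv G x).re x := fun x =>
      (hG1 x).hasDerivAt.real_of_complex
    have hg2 : ∀ x : ℝ, HasDerivAt (fun x : ℝ => (deriv G x).re) (deriv (deriv G) x).re x :=
      fun x => (hG' x).hasDerivAt.real_of_complex
    have hd1 : deriv (df T h) = fun x : ℝ => deriv h x - (deriv G x).re := by
      funext x
      rw [hdf]
      exact ((hh1 x).sub (hg1 x)).deriv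
    have hd2 : deriv (deriv (df T h)) = fun x : ℝ => deriv (deriv h) x - (deriv (deriv G) x).re := by
      funext x
      rw [hd1]
      exact ((hh2 x).sub (hg2 x)).deriv
    intro x
    rw [hd2, hd1, hdf]
    exact ⟨hG5 0 (by norm_num) x, hG5 1 (by norm_num) x, hG5 2 le_rfl x⟩
  let s0 : Sg := ⟨M, κ * (1 / n), P, T⟩
  have h0 : Gd h M (κ * (1 / n)) E0 0 s0 := by
    refine ⟨by simp [s0], by simp only [one_div, pp, Finset.range_zero, Finset.prod_empty, mul_one, s0], ?_⟩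
    have : R13.EE E0 0 = E0 := by unfold R13.EE; simp
    rw [this]; exact hclose
  obtain ⟨f, hf1, hf2⟩ := exists_chain hN le_rfl hC hK hE0pos hb hb1 hL s0 h0
  exact strip_of_chain le_rfl hM hC hK1 hK hE0pos hb hb1 hL f hf1 hf2

/-- `StR` -/
theorem stR : FD.StR := by
  intro η c A hη hc
  obtain ⟨q0, hq0⟩ := exists_nat_gt (Real.pi / η)
  obtain ⟨C0, hC0, hap⟩ := exists_approx_u A
  choose CF hCF hap using hap
  obtain ⟨β, M, hβ, hM, hcore⟩ := core_u hC0 (by positivity : 0 < c / 2) CF hCF q0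
  refine ⟨β, max M (1 / c), hβ, hM.trans (le_max_left _ _), ?_⟩
  rintro h ⟨hs, hp, hlow, hA⟩ hcol
  have hcls : Cls A h := ⟨hs, hp, fun i x => by
    rw [← iteratedDeriv_eq_iterate]; exact hA i x⟩
  have hpos : ∀ x, 0 < rad h x := fun x => hc.trans_le (hlow x)
  have hcst : ∀ n, q0 ≤ n → Cst h n := by
    intro n hn θ
    refine Reg.mx_const_of_collar_smooth hs hp hpos hcol ?_ θ
    have hn' : (q0 : ℝ) ≤ n := by exact_mod_cast hn
    rw [div_lt_iff₀ hη] at hq0
    rw [div_lt_iff₀ (by positivity)]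
    nlinarith only [hn', hq0, hη]
  obtain ⟨H, h1, h2, h3⟩ := hcore h hs hp (fun x => by
    have := hlow x
    unfold rad
    linarith only [this]) hcst (fun N => hap N h hcls)
  refine ⟨hp, fun x => ?_, H, h1, fun z hz => (h2 z hz).trans (le_max_left _ _), h3⟩
  have e1 := hlow x
  have e2 : 1 / c ≤ max M (1 / c) := le_max_right _ _
  calc (1 : ℝ) = 1 / c * c := by field_simp
    _ ≤ max M (1 / c) * (h x + deriv (deriv h) x) :=
      mul_le_mul e2 e1 hc.le (by positivity)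

end Vale.Agent.P097.H500
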