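import Mathlib

set_option linter.all false

/-! # P097: holomorphic extension of periodic real-analytic functions to a strip -/

namespace Vale.Agent.P097.H500

open Complex Metric Filter Topology

/-- a real-analytic function extends holomorphically to a small disc -/
theorem cx_local {F : ℝ → ℝ} {x : ℝ} (hF : AnalyticAt ℝ F x) : ∃ (ρ : ℝ) (G : ℂ → ℂ), 0 < ρ ∧
    DifferentiableOn ℂ G (ball (x : ℂ) ρ) ∧ ∀ y : ℝ, |y - x| < ρ → G y = F y := by
  obtain ⟨p, R, hp⟩ := hF
  obtain ⟨r, hr0, hrR⟩ : ∃ r : NNReal, 0 < r ∧ (r : ENNReal) < R := by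
    obtain ⟨r, h1, h2⟩ := ENNReal.lt_iff_exists_nnreal_btwn.1 hp.r_pos
    exact ⟨r, by exact_mod_cast h1, h2⟩
  obtain ⟨C, hC, hb⟩ := p.norm_mul_pow_le_of_lt_radius (hrR.trans_le hp.r_le)
  have hr0' : (0 : ℝ) < r := by exact_mod_cast hr0
  have hb' : ∀ n, |p.coeff n| * (r : ℝ) ^ n ≤ C := fun n => by
    have := hb n
    rwa [FormalMultilinearSeries.norm_apply_eq_norm_coef] at this
  refine ⟨r / 2, fun z => ∑' n : ℕ, ((p.coeff n : ℝ) : ℂ) * (z - x) ^ n, by positivity, ?_, ?_⟩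
  · refine Complex.differentiableOn_tsum_of_summable_norm (u := fun n : ℕ => C * (1 / 2) ^ n)
      (summable_geometric_two.mul_left C) (fun n => by fun_prop) isOpen_ball ?_
    intro n w hw
    rw [mem_ball, dist_eq_norm] at hw
    rw [norm_mul, norm_pow, norm_real, Real.norm_eq_abs]
    calc |p.coeff n| * ‖w - x‖ ^ n ≤ |p.coeff n| * ((r : ℝ) / 2) ^ n := by gcongr
      _ = (|p.coeff n| * (r : ℝ) ^ n) * (1 / 2) ^ n := by rw [div_pow, one_div, inv_pow]; ring
      _ ≤ C * (1 / 2) ^ n := mul_le_mul_of_nonneg_right (hb' n) (by positivity)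
  · intro y hy
    have hmem : y - x ∈ Metric.eball (0 : ℝ) R := by
      rw [Metric.mem_eball, edist_zero_right]
      refine lt_trans ?_ hrR
      rw [← ofReal_norm_eq_enorm, Real.norm_eq_abs]
      rw [ENNReal.ofReal_lt_coe_iff (abs_nonneg _)]
      linarith
    have h1 := hp.hasSum hmem
    rw [add_sub_cancel] at h1
    have h2 : HasSum (fun n : ℕ => p.coeff n * (y - x) ^ n) (F y) := by
      refine h1.congr_fun ?_ |> fun h => h
      intro n
      simp [mul_comm]
    have h3 := (Complex.hasSum_ofReal.2 h2).tsum_eq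
    rw [← h3]
    show ∑' n : ℕ, ((p.coeff n : ℝ) : ℂ) * ((y : ℂ) - x) ^ n = _
    refine tsum_congr fun n => ?_
    push_cast
    ring

/-- identity theorem from a real point -/
theorem eqOn_of_real {S : Set ℂ} (hS : IsOpen S) (hc : IsPreconnected S) {f g : ℂ → ℂ}
    (hf : DifferentiableOn ℂ f S) (hg : DifferentiableOn ℂ g S) {m : ℝ} (hm : (m : ℂ) ∈ S)
    (h : ∀ᶠ y : ℝ in 𝓝 m, f y = g y) : Set.EqOn f g S := by
  refine (hf.analyticOnNhd hS).eqOn_of_preconnected_of_frequently_eq (hg.analyticOnNhd hS) hc hm ?_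
  have h1 : Tendsto (fun y : ℝ => (y : ℂ)) (𝓝[≠] m) (𝓝[≠] (m : ℂ)) := by
    refine tendsto_nhdsWithin_iff.2 ⟨?_, ?_⟩
    · exact (continuous_ofReal.tendsto m).mono_left nhdsWithin_le_nhds
    · filter_upwards [self_mem_nhdsWithin] with y hy
      simpa using hy
  have h2 : ∀ᶠ y : ℝ in 𝓝[≠] m, f y = g y := h.filter_mono nhdsWithin_le_nhds
  exact h1.frequently h2.frequently

theorem isOpen_str (κ : ℝ) : IsOpen {z : ℂ | |z.im| < κ} :=
  isOpen_lt (continuous_abs.comp continuous_im) continuous_const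

theorem convex_str (κ : ℝ) : Convex ℝ {z : ℂ | |z.im| < κ} := by
  have : {z : ℂ | |z.im| < κ} = Complex.imLm ⁻¹' (Set.Ioo (-κ) κ) := by
    ext z
    simp [abs_lt]
  rw [this]
  exact (convex_Ioo _ _).linear_preimage Complex.imLm

theorem strip_ext {F : ℝ → ℝ} {P : ℝ} (hP : 0 < P) (hF : ∀ x, AnalyticAt ℝ F x)
    (hper : ∀ x, F (x + P) = F x) : ∃ (κ : ℝ) (Γ : ℂ → ℂ), 0 < κ ∧
      DifferentiableOn ℂ Γ {z : ℂ | |z.im| < κ} ∧ ∀ x : ℝ, Γ x = F x := by
  choose ρ G hρ hG hGF using fun x => cx_local (hF x)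
  obtain ⟨δ, hδ, hL⟩ := lebesgue_number_lemma_of_metric (s := (fun x : ℝ => (x : ℂ)) '' Set.Icc 0 P)
    (c := fun x : ℝ => ball (x : ℂ) (ρ x)) (isCompact_Icc.image continuous_ofReal)
    (fun _ => isOpen_ball) (by
      rintro _ ⟨x, hx, rfl⟩
      exact Set.mem_iUnion.2 ⟨x, mem_ball_self (hρ x)⟩)
  have hperi : Function.Periodic F P := hper
  have key : ∀ x : ℝ, ∃ H : ℂ → ℂ, DifferentiableOn ℂ H (ball (x : ℂ) δ) ∧
      ∀ y : ℝ, |y - x| < δ → H y = F y := by
    intro x
    obtain ⟨k, hk, -⟩ := existsUnique_sub_zsmul_mem_Ico hP x 0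
    simp only [zero_add] at hk
    obtain ⟨i, hi⟩ := hL ((x - k • P : ℝ) : ℂ) ⟨x - k • P, ⟨hk.1, hk.2.le⟩, rfl⟩
    refine ⟨fun z => G i (z - ((k • P : ℝ) : ℂ)), ?_, ?_⟩
    · refine (hG i).comp (by fun_prop) ?_
      intro z hz
      apply hi
      rw [mem_ball, dist_eq_norm] at hz ⊢
      convert hz using 2
      push_cast
      ring
    · intro y hy
      have h1 : ((y - k • P : ℝ) : ℂ) ∈ ball ((x - k • P : ℝ) : ℂ) δ := by
        rw [mem_ball, dist_eq_norm, ← ofReal_sub, norm_real, Real.norm_eq_abs]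
        have : y - k • P - (x - k • P) = y - x := by ring
        rw [this]
        exact hy
      have h2 := hi h1
      rw [mem_ball, dist_eq_norm, ← ofReal_sub, norm_real, Real.norm_eq_abs] at h2
      have h3 := hGF i (y - k • P) h2
      show G i ((y : ℂ) - ((k • P : ℝ) : ℂ)) = F y
      rw [← ofReal_sub, h3, hperi.sub_zsmul_eq k]
  choose H hH hHF using key
  refine ⟨δ / 2, fun z => H z.re z, by positivity, ?_, ?_⟩
  · intro z₀ hz₀
    have hz₀' : |z₀.im| < δ / 2 := hz₀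
    have hn : ∀ z : ℂ, ‖z - ((z.re : ℝ) : ℂ)‖ = |z.im| := fun z => by
      have : z - ((z.re : ℝ) : ℂ) = ((z.im : ℝ) : ℂ) * Complex.I := by
        apply Complex.ext <;> simp
      rw [this, norm_mul, Complex.norm_I, mul_one, norm_real, Real.norm_eq_abs]
    have h1 : DifferentiableAt ℂ (H z₀.re) z₀ := by
      apply (hH z₀.re z₀ _).differentiableAt (isOpen_ball.mem_nhds _) <;>
      · rw [mem_ball, dist_eq_norm, hn]
        linarith
    refine (h1.congr_of_eventuallyEq ?_).differentiableWithinAt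
    have e1 : ∀ᶠ z : ℂ in 𝓝 z₀, |z.im| < δ / 2 := (isOpen_str (δ / 2)).mem_nhds hz₀
    have e2 : ∀ᶠ z : ℂ in 𝓝 z₀, |z.re - z₀.re| < δ / 4 := by
      have : IsOpen {z : ℂ | |z.re - z₀.re| < δ / 4} :=
        isOpen_lt (continuous_abs.comp (continuous_re.sub continuous_const)) continuous_const
      exact this.mem_nhds (by simp; linarith)
    filter_upwards [e1, e2] with z hz1 hz2
    have hS : IsOpen (ball ((z.re : ℝ) : ℂ) δ ∩ ball ((z₀.re : ℝ) : ℂ) δ) :=
      isOpen_ball.inter isOpen_ball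
    have hC : IsPreconnected (ball ((z.re : ℝ) : ℂ) δ ∩ ball ((z₀.re : ℝ) : ℂ) δ) :=
      ((convex_ball _ _).inter (convex_ball _ _)).isPreconnected
    have hd : ‖((z.re : ℝ) : ℂ) - ((z₀.re : ℝ) : ℂ)‖ < δ / 4 := by
      rw [← ofReal_sub, norm_real, Real.norm_eq_abs]
      exact hz2
    refine eqOn_of_real hS hC ((hH z.re).mono Set.inter_subset_left)
      ((hH z₀.re).mono Set.inter_subset_right) (m := z.re) ⟨mem_ball_self hδ, ?_⟩ ?_ ⟨?_, ?_⟩
    · rw [mem_ball, dist_eq_norm]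
      linarith
    · have e3 : ∀ᶠ y : ℝ in 𝓝 z.re, |y - z.re| < δ / 4 := by
        have : IsOpen {y : ℝ | |y - z.re| < δ / 4} :=
          isOpen_lt (continuous_abs.comp (continuous_id.sub continuous_const)) continuous_const
        exact this.mem_nhds (by simp; linarith)
      filter_upwards [e3] with y hy
      rw [hHF z.re y (by linarith), hHF z₀.re y]
      have := abs_sub_le y z.re z₀.re
      linarith
    · rw [mem_ball, dist_eq_norm, hn]
      linarith
    · rw [mem_ball, dist_eq_norm]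
      have h5 := norm_sub_le_norm_sub_add_norm_sub z ((z.re : ℝ) : ℂ) ((z₀.re : ℝ) : ℂ)
      rw [hn] at h5
      linarith
  · intro x
    have := hHF x x (by simpa using hδ)
    simpa using this

/-- functions holomorphic on a strip which agree on the reals agree -/
theorem strip_eq {κ : ℝ} (hκ : 0 < κ) {f g : ℂ → ℂ}
    (hf : DifferentiableOn ℂ f {z : ℂ | |z.im| < κ})
    (hg : DifferentiableOn ℂ g {z : ℂ | |z.im| < κ}) (h : ∀ x : ℝ, f x = g x) :
    ∀ z : ℂ, |z.im| < κ → f z = g z :=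
  eqOn_of_real (isOpen_str κ) (convex_str κ).isPreconnected hf hg (m := 0)
    (by simpa using hκ) (Eventually.of_forall h)

end Vale.Agent.P097.H500
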