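import Vale.Agent.P097.H209.Mem
import Vale.Agent.P097.H500.StripExt

set_option linter.all false

/-! # P097 / LR : blocks LIN and LIN5 -/

namespace Vale.Agent.P097.H500.Lin

open Complex Metric Filter Topology Vale.Agent.P097.LR Vale.Agent.P097.H500.Ell

/-! ### monotonicity in `r` -/

theorem iso_mono {x₁ : ℂ} {κ r r' : ℝ} {s₁ : ℂ} {Z : ℂ → ℂ → ℂ} {tI : ℂ → ℂ} {U : ℂ → ℂ → ℂ}
    (I : Iso x₁ κ r s₁ Z tI U) (h0 : 0 < r') (h : r' ≤ r) : Iso x₁ κ r' s₁ Z tI U where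
  hκ := I.hκ
  hr := h0
  dI := I.dI.mono (ball_subset_ball h)
  I0 := I.I0
  Iev := fun w hw => I.Iev w (hw.trans_le h)
  dU := I.dU.mono fun p hp => ⟨hp.1, hp.2.trans_le h⟩
  U0 := I.U0
  Ure := fun τ w hτ hw => I.Ure τ w hτ (hw.trans_le h)
  Uev := fun τ w hτ hw => I.Uev τ w hτ (hw.trans_le h)
  loc := fun τ w hτ hw => I.loc τ w hτ (hw.trans_le h)

theorem lf_mono {b κ r r' : ℝ} {Z : ℂ → ℂ → ℂ} {s₁ : Fin 2 → ℂ} {tI : Fin 2 → ℂ → ℂ}
    {U : Fin 2 → ℂ → ℂ → ℂ} (L : LF b κ r Z s₁ tI U) (h0 : 0 < r') (h : r' ≤ r) :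
    LF b κ r' Z s₁ tI U where
  hκ := L.hκ
  hκb := L.hκb
  hr := h0
  dZ := L.dZ.mono fun p hp => ⟨hp.1, hp.2.1, hp.2.2.trans_le h⟩
  per := fun t w h1 h2 hw => L.per t w h1 h2 (hw.trans_le h)
  even := fun t w h1 h2 hw => L.even t w h1 h2 (hw.trans_le h)
  dne := L.dne
  iso := fun j => iso_mono (L.iso j) h0 h
  near := fun j w hw => L.near j w (hw.trans_le h)

theorem rx_mono {r r' : ℝ} {Z : ℂ → ℂ → ℂ} {X₀ : ℝ → ℝ → ℝ} (R : RX r Z X₀) (h : r' ≤ r) :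
    RX r' Z X₀ where
  cont := R.cont.mono fun p hp => lt_of_lt_of_le hp h
  zero := R.zero
  per := fun t w hw => R.per t w (hw.trans_le h)
  even := fun t w hw => R.even t w (hw.trans_le h)
  eq := fun t w hw => R.eq t w (hw.trans_le h)

theorem el_mono {a c r r' : ℝ} {X₀ : ℝ → ℝ → ℝ} {Ψ₀ : ℝ → ℝ} (E : EL a c r X₀ Ψ₀) (h : r' ≤ r) :
    EL a c r' X₀ Ψ₀ where
  an := E.an
  dpos := E.dpos
  per := E.per
  leaf := fun w h1 h2 => E.leaf w h1 (h2.trans_le h)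

/-! ### Fourier coefficients -/

theorem int_exp {n : ℕ} (hn : 0 < n) :
    ∫ t in (0 : ℝ)..1, Complex.exp (2 * Real.pi * Complex.I * n * t) = 0 := by
  have hc : (2 * Real.pi * Complex.I * n : ℂ) ≠ 0 := by
    have h1 : (Real.pi : ℂ) ≠ 0 := by exact_mod_cast Real.pi_ne_zero
    have h2 : (n : ℂ) ≠ 0 := by exact_mod_cast hn.ne'
    exact mul_ne_zero (mul_ne_zero (mul_ne_zero two_ne_zero h1) I_ne_zero) h2
  rw [integral_exp_mul_complex hc]
  have e : Complex.exp (2 * Real.pi * Complex.I * n * (1 : ℝ)) = 1 := by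
    rw [ofReal_one, mul_one, show (2 * Real.pi * Complex.I * n : ℂ) =
      n * (2 * Real.pi * Complex.I) by ring, Complex.exp_nat_mul_two_pi_mul_I]
  rw [e]
  simp

theorem four {f : ℝ → ℂ} (hf : Continuous f) (hp : Function.Periodic f 1) {n p : ℕ} (hn : 0 < n)
    {C : ℂ} (hC : ∀ t, ∑ j ∈ Finset.range n, f (t + j * ((p : ℝ) / n)) = C) :
    ∫ t in (0 : ℝ)..1, f t * Complex.exp (2 * Real.pi * Complex.I * n * t) = 0 := by
  have hn0 : (n : ℝ) ≠ 0 := by exact_mod_cast hn.ne'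
  have hn0' : (n : ℂ) ≠ 0 := by exact_mod_cast hn.ne'
  obtain ⟨E, hE⟩ : ∃ E : ℝ → ℂ, E = fun t : ℝ => Complex.exp (2 * Real.pi * Complex.I * n * (t : ℂ)) :=
    ⟨_, rfl⟩
  have hEc : Continuous E := by rw [hE]; fun_prop
  have hE1 : ∀ (j : ℕ) (t : ℝ), E (t + j * ((p : ℝ) / n)) = E t := by
    intro j t
    rw [hE]
    simp only
    have : (2 * Real.pi * Complex.I * n * ((t + j * ((p : ℝ) / n) : ℝ) : ℂ)) =
        2 * Real.pi * Complex.I * n * t + ((j * p : ℕ) : ℂ) * (2 * Real.pi * Complex.I) := by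
      push_cast
      field_simp
    rw [this, Complex.exp_add, Complex.exp_nat_mul_two_pi_mul_I, mul_one]
  have hEp : Function.Periodic E 1 := by
    intro t
    rw [hE]
    simp only
    have : (2 * Real.pi * Complex.I * n * ((t + 1 : ℝ) : ℂ)) =
        2 * Real.pi * Complex.I * n * t + (n : ℂ) * (2 * Real.pi * Complex.I) := by
      push_cast
      ring
    rw [this, Complex.exp_add, Complex.exp_nat_mul_two_pi_mul_I, mul_one]
  have h1 : ∀ j : ℕ, ∫ t in (0 : ℝ)..1, f (t + j * ((p : ℝ) / n)) * E t =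
      ∫ t in (0 : ℝ)..1, f t * E t := by
    intro j
    have e1 : ∫ t in (0 : ℝ)..1, f (t + j * ((p : ℝ) / n)) * E t =
        ∫ t in (0 : ℝ)..1, (fun s => f s * E s) (t + j * ((p : ℝ) / n)) := by
      apply intervalIntegral.integral_congr
      intro t _
      simp only [hE1]
    rw [e1, intervalIntegral.integral_comp_add_right (fun s => f s * E s) (j * ((p : ℝ) / n))]
    have hper : Function.Periodic (fun s => f s * E s) 1 := hp.mul hEp
    have e2 := hper.intervalIntegral_add_eq (0 + j * ((p : ℝ) / n)) 0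
    rw [show 0 + j * ((p : ℝ) / n) + 1 = 1 + j * ((p : ℝ) / n) by ring, zero_add 1] at e2
    exact e2
  have h2 : ∑ j ∈ Finset.range n, ∫ t in (0 : ℝ)..1, f (t + j * ((p : ℝ) / n)) * E t =
      ∫ t in (0 : ℝ)..1, C * E t := by
    rw [← intervalIntegral.integral_finsetSum]
    · apply intervalIntegral.integral_congr
      intro t _
      simp only
      rw [← Finset.sum_mul, hC]
    · intro j _
      apply Continuous.intervalIntegrable
      fun_prop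
  rw [Finset.sum_congr rfl (fun j _ => h1 j), Finset.sum_const, Finset.card_range, nsmul_eq_mul,
    intervalIntegral.integral_const_mul] at h2
  have h3 : ∫ t in (0 : ℝ)..1, E t = 0 := by rw [hE]; exact int_exp hn
  rw [h3, mul_zero] at h2
  have h4 := (mul_eq_zero.1 h2).resolve_left hn0'
  rw [← h4]
  apply intervalIntegral.integral_congr
  intro t _
  simp only [hE]

/-! ### the orbits of a leaf -/

theorem X_cont {r : ℝ} {Z : ℂ → ℂ → ℂ} {X₀ : ℝ → ℝ → ℝ} (R : RX r Z X₀) {w : ℝ} (hw : |w| < r) :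
    Continuous fun t => X₀ t w := by
  have h : Continuous (fun t : ℝ => (t, w)) := by fun_prop
  exact R.cont.comp_continuous h (fun t => hw)

theorem X_add {r : ℝ} {Z : ℂ → ℂ → ℂ} {X₀ : ℝ → ℝ → ℝ} (R : RX r Z X₀) {w : ℝ} (hw : |w| < r)
    (p : ℕ) (t : ℝ) : X₀ (t + p) w = X₀ t w + p := by
  induction p with
  | zero => simp
  | succ p ih =>
    rw [show t + ((p + 1 : ℕ) : ℝ) = (t + p) + 1 by push_cast; ring, R.per _ w hw, ih]
    push_cast
    ring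

theorem Psi_add {a c r : ℝ} {X₀ : ℝ → ℝ → ℝ} {Ψ₀ : ℝ → ℝ} (E : EL a c r X₀ Ψ₀) (p : ℕ) (x : ℝ) :
    Ψ₀ (x + p) = Ψ₀ x + 2 * Real.pi * p := by
  induction p with
  | zero => simp
  | succ p ih =>
    rw [show x + ((p + 1 : ℕ) : ℝ) = (x + p) + 1 by push_cast; ring, E.per, ih]
    push_cast
    ring

theorem Psi_cont {a c r : ℝ} {X₀ : ℝ → ℝ → ℝ} {Ψ₀ : ℝ → ℝ} (E : EL a c r X₀ Ψ₀) :
    Continuous Ψ₀ := continuous_iff_continuousAt.2 fun x => (E.an x).continuousAt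

theorem surj_of_per {φ : ℝ → ℝ} (hc : Continuous φ) {T : ℝ} (hT : 0 < T)
    (hp : ∀ t, φ (t + 1) = φ t + T) : Function.Surjective φ := by
  have h1 : ∀ (k : ℕ) (t : ℝ), φ (t + k) = φ t + k * T := by
    intro k
    induction k with
    | zero => intro t; simp
    | succ k ih =>
      intro t
      rw [show t + ((k + 1 : ℕ) : ℝ) = (t + k) + 1 by push_cast; ring, hp, ih]
      push_cast
      ring
  intro y
  obtain ⟨k, hk⟩ := exists_nat_ge (|y - φ 0| / T)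
  rw [div_le_iff₀ hT, abs_le] at hk
  have h2 : φ k = φ 0 + k * T := by simpa using h1 k 0
  have h3 : φ 0 = φ (-k) + k * T := by simpa using h1 k (-k)
  have h4 : (-(k : ℝ)) ≤ k := by have := Nat.cast_nonneg (α := ℝ) k; linarith
  obtain ⟨t, -, ht⟩ := intermediate_value_Icc h4 hc.continuousOn
    (show y ∈ Set.Icc (φ (-k)) (φ k) from ⟨by linarith [hk.1], by linarith [hk.2]⟩)
  exact ⟨t, ht⟩

theorem orb_unique {a c J : ℝ} (h0 : 0 < c) (h1 : c ≤ a) (hJ : 0 < J) (hJ1 : J * a < 1)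
    {x y : ℕ → ℝ} (hx : Orb (hE a c) (fE a c J) x) (hy : Orb (hE a c) (fE a c J) y)
    (h : x 0 = y 0) (j : ℕ) : x j = y j := by
  rw [hE_eq, fE_eq] at hx hy
  have H := ok_hE h0 h1
  have S := sm_hE h0 h1 hJ hJ1
  obtain ⟨N, hN1, -⟩ := H209.exists_N H S
  rw [H209.orb_iter H S hN1 hx j, H209.orb_iter H S hN1 hy j, h]

theorem leaf_orb {a c r : ℝ} {X₀ : ℝ → ℝ → ℝ} {Ψ₀ : ℝ → ℝ} (E : EL a c r X₀ Ψ₀) {w : ℝ}
    (h0 : 0 < w) (h1 : w < r) : ∃ J : ℝ, 0 < J ∧ J * a < 1 ∧ ∀ t : ℝ,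
      Orb (hE a c) (fE a c J) (fun j => Ψ₀ (X₀ (t + j * w) w)) := by
  obtain ⟨J, hJ, hJ1, hS⟩ := E.leaf w h0 h1
  refine ⟨J, hJ, hJ1, fun t j => ?_⟩
  have := hS (t + j * w)
  rw [show t + j * w + w = t + ((j + 1 : ℕ) : ℝ) * w by push_cast; ring] at this
  exact this

/-- the function of the Lazutkin coordinate attached to `g` -/
noncomputable def FF (a c : ℝ) (Ψ₀ g : ℝ → ℝ) (x : ℝ) : ℝ := g (Ψ₀ x) * hE a c (Ψ₀ x)

theorem sum_const {a c r ε : ℝ} (h0 : 0 < c) (h1 : c ≤ a) {Z : ℂ → ℂ → ℂ} {X₀ : ℝ → ℝ → ℝ}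
    {Ψ₀ : ℝ → ℝ} (R : RX r Z X₀) (E : EL a c r X₀ Ψ₀) (hr : r ≤ ε) {g : ℝ → ℝ}
    (hg : SolE a c ε g) {n p : ℕ} (hn : 0 < n) (hp : 0 < p) (hw : (p : ℝ) / n < r) :
    ∃ C : ℝ, ∀ t : ℝ,
      ∑ j ∈ Finset.range n, FF a c Ψ₀ g (X₀ (t + j * ((p : ℝ) / n)) ((p : ℝ) / n)) = C := by
  obtain ⟨w, hwd⟩ : ∃ w : ℝ, w = (p : ℝ) / n := ⟨_, rfl⟩
  have hw0 : 0 < w := by rw [hwd]; positivity
  rw [← hwd] at hw ⊢
  have hwa : |w| < r := by rwa [abs_of_pos hw0]
  obtain ⟨J, hJ, hJ1, hO⟩ := leaf_orb E hw0 hw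
  have hn0 : (n : ℝ) ≠ 0 := by exact_mod_cast hn.ne'
  have hclo' : ∀ t : ℝ, Ψ₀ (X₀ (t + n * w) w) = Ψ₀ (X₀ (t + (0 : ℕ) * w) w) + 2 * Real.pi * p := by
    intro t
    have e : (n : ℝ) * w = p := by rw [hwd]; field_simp
    rw [e, X_add R hwa, Psi_add E]
    simp
  have hsurj : Function.Surjective fun t => Ψ₀ (X₀ t w) := by
    refine surj_of_per ((Psi_cont E).comp (X_cont R hwa)) Real.two_pi_pos fun t => ?_
    show Ψ₀ (X₀ (t + 1) w) = _
    rw [R.per t w hwa, E.per]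
  have hclo : Clo (hE a c) (fE a c J) n p := by
    intro x hx
    obtain ⟨t, ht⟩ := hsurj (x 0)
    have hu := fun j => orb_unique h0 h1 hJ hJ1 hx (hO t) (by
      show x 0 = Ψ₀ (X₀ (t + ((0 : ℕ) : ℝ) * w) w)
      rw [← ht]
      simp) j
    rw [hu n, hu 0]
    exact hclo' t
  obtain ⟨-, -, hsum⟩ := hg
  have hs := hsum n p hn hp (by rw [← hwd]; linarith) J hJ hJ1 hclo
  have hsin : ∀ x, Real.sin (fE a c J x) = J * hE a c x := by
    intro x
    rw [fE_eq, hE_eq]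
    exact (ok_hE h0 h1).sin_lf (sm_hE h0 h1 hJ hJ1) x
  refine ⟨∑ j ∈ Finset.range n, FF a c Ψ₀ g (X₀ (0 + j * w) w), fun t => ?_⟩
  have h2 := hs _ _ (hO t) (hO 0)
  simp only [hsin] at h2
  have e : ∀ t : ℝ, ∑ j ∈ Finset.range n, g (Ψ₀ (X₀ (t + j * w) w)) *
      (J * hE a c (Ψ₀ (X₀ (t + j * w) w))) =
      J * ∑ j ∈ Finset.range n, FF a c Ψ₀ g (X₀ (t + j * w) w) := by
    intro t
    rw [Finset.mul_sum]
    refine Finset.sum_congr rfl fun j _ => ?_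
    unfold FF
    ring
  rw [e t, e 0] at h2
  exact mul_left_cancel₀ hJ.ne' h2

theorem hE_pos {a c : ℝ} (h0 : 0 < c) (h1 : c ≤ a) (x : ℝ) : 0 < hE a c x := by
  rw [hE_eq]
  exact (ok_hE h0 h1).spos x

theorem hE_per {a c : ℝ} (x : ℝ) : hE a c (x + 2 * Real.pi) = hE a c x := by
  rw [hE_eq]
  exact sf_per x

theorem FF_per {a c r : ℝ} {X₀ : ℝ → ℝ → ℝ} {Ψ₀ : ℝ → ℝ} (E : EL a c r X₀ Ψ₀) {g : ℝ → ℝ}
    (hg : ∀ x, g (x + 2 * Real.pi) = g x) (x : ℝ) : FF a c Ψ₀ g (x + 1) = FF a c Ψ₀ g x := by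
  unfold FF
  rw [E.per, hg, hE_per]

theorem hE_an {a c : ℝ} (h0 : 0 < c) (h1 : c ≤ a) (x : ℝ) : AnalyticAt ℝ (hE a c) x := by
  have e : hE a c = fun ψ => √(qf ((a ^ 2 + c ^ 2) / 2) ((a ^ 2 - c ^ 2) / 2) 0 ψ) := hE_eq a c
  rw [e]
  have hq := (ok_hE h0 h1).qpos x
  have h2 : AnalyticAt ℝ (fun y : ℝ => √y) (qf ((a ^ 2 + c ^ 2) / 2) ((a ^ 2 - c ^ 2) / 2) 0 x) :=
    (Real.contDiffAt_sqrt (n := ⊤) hq.ne').analyticAt
  have h3 : AnalyticAt ℝ (qf ((a ^ 2 + c ^ 2) / 2) ((a ^ 2 - c ^ 2) / 2) 0) x := by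
    unfold qf
    have : ContDiff ℝ ⊤ (fun x : ℝ => (a ^ 2 + c ^ 2) / 2 + (a ^ 2 - c ^ 2) / 2 *
      Real.cos (2 * x) + 0 * Real.sin (2 * x)) := by fun_prop
    exact this.contDiffAt.analyticAt
  exact AnalyticAt.comp (g := fun y : ℝ => √y) h2 h3

theorem FF_an {a c r : ℝ} (h0 : 0 < c) (h1 : c ≤ a) {X₀ : ℝ → ℝ → ℝ} {Ψ₀ : ℝ → ℝ}
    (E : EL a c r X₀ Ψ₀) {g : ℝ → ℝ} (hg : ∀ x, AnalyticAt ℝ g x) (x : ℝ) :
    AnalyticAt ℝ (FF a c Ψ₀ g) x :=
  ((hg _).comp (E.an x)).mul ((hE_an h0 h1 _).comp (E.an x))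

/-- the resonance conditions -/
theorem van {a c r ε : ℝ} (h0 : 0 < c) (h1 : c ≤ a) {Z : ℂ → ℂ → ℂ} {X₀ : ℝ → ℝ → ℝ}
    {Ψ₀ : ℝ → ℝ} (R : RX r Z X₀) (E : EL a c r X₀ Ψ₀) (hr : r ≤ ε) {g : ℝ → ℝ}
    (hg : SolE a c ε g) {γ : ℂ → ℂ} (hγ : ∀ x : ℝ, γ x = FF a c Ψ₀ g x) : Van r X₀ γ := by
  -- positive rotation numbers
  have pos : ∀ n p : ℕ, 0 < n → 0 < p → (p : ℝ) / n < r →
      ∫ t in (0 : ℝ)..1, γ (X₀ t ((p : ℝ) / n)) *
        Complex.exp (2 * Real.pi * Complex.I * n * t) = 0 := by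
    intro n p hn hp hw
    have hw0 : 0 < (p : ℝ) / n := by positivity
    have hwa : |(p : ℝ) / n| < r := by rwa [abs_of_pos hw0]
    obtain ⟨C, hC⟩ := sum_const h0 h1 R E hr hg hn hp hw
    refine four (f := fun t => γ (X₀ t ((p : ℝ) / n))) ?_ ?_ hn (C := (C : ℂ)) ?_ (p := p)
    · simp only [hγ]
      have h2 : Continuous (FF a c Ψ₀ g) :=
        continuous_iff_continuousAt.2 fun x => (FF_an h0 h1 E hg.1 x).continuousAt
      exact continuous_ofReal.comp (h2.comp (X_cont R hwa))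
    · intro t
      simp only [hγ]
      rw [R.per t _ hwa, FF_per E hg.2.1]
    · intro t
      simp only [hγ]
      rw [← hC t]
      push_cast
      rfl
  intro n hn p hp hw
  rcases lt_or_gt_of_ne hp with hneg | hpos
  · obtain ⟨k, hk⟩ : ∃ k : ℕ, p = -(k : ℤ) := ⟨p.natAbs, by omega⟩
    have hk0 : 0 < k := by omega
    subst hk
    have e1 : (((-(k : ℤ) : ℤ) : ℝ)) / n = -((k : ℝ) / n) := by push_cast; ring
    rw [e1, abs_neg] at hw
    have hw' : (k : ℝ) / n < r := (le_abs_self _).trans_lt hw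
    rw [← pos n k hn hk0 hw']
    apply intervalIntegral.integral_congr
    intro t _
    simp only
    rw [e1, R.even t _ hw]
  · obtain ⟨k, hk⟩ : ∃ k : ℕ, p = (k : ℤ) := ⟨p.natAbs, by omega⟩
    have hk0 : 0 < k := by omega
    subst hk
    have e1 : (((k : ℤ) : ℝ)) / n = (k : ℝ) / n := by push_cast; ring
    rw [e1] at hw ⊢
    exact pos n k hn hk0 ((le_abs_self _).trans_lt hw)

/-! ### linear algebra of outputs -/

/-- there is an extension -/
def Out (b κ₀ : ℝ) (γ : ℂ → ℂ) (A : Fin 2 → ℂ) : Prop :=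
  ∃ (δ : ℝ) (Γ : ℂ → ℂ), AOut b δ κ₀ γ Γ A

theorem aout_mono {b δ δ' κ₀ : ℝ} {γ Γ : ℂ → ℂ} {A : Fin 2 → ℂ} (h : AOut b δ κ₀ γ Γ A)
    (h0 : 0 < δ') (h1 : δ' ≤ δ) : AOut b δ' κ₀ γ Γ A where
  hδ := h0
  dΓ := h.dΓ.mono fun x hx => ⟨hx.1, by linarith [hx.2.1], hx.2.2⟩
  eq := h.eq
  per := fun x h2 h3 => h.per x h2 (by linarith)
  refl := fun x h2 h3 => h.refl x (by linarith) h3
  pole := h.pole

theorem out_zero {b κ₀ : ℝ} : Out b κ₀ (fun _ => 0) (fun _ => 0) :=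
  ⟨1, fun _ => 0, one_pos, differentiableOn_const _, fun _ _ => rfl, fun _ _ _ => rfl,
    fun _ _ _ => rfl, fun j => ⟨fun _ => 0, analyticAt_const, by simp⟩⟩

theorem out_add {b κ₀ : ℝ} {γ γ' : ℂ → ℂ} {A A' : Fin 2 → ℂ} (h : Out b κ₀ γ A)
    (h' : Out b κ₀ γ' A') : Out b κ₀ (fun x => γ x + γ' x) (fun j => A j + A' j) := by
  obtain ⟨δ, Γ, h⟩ := h
  obtain ⟨δ', Γ', h'⟩ := h'
  have h0 : 0 < min δ δ' := lt_min h.hδ h'.hδ
  have k := aout_mono h h0 (min_le_left _ _)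
  have k' := aout_mono h' h0 (min_le_right _ _)
  refine ⟨min δ δ', fun x => Γ x + Γ' x, h0, k.dΓ.add k'.dΓ, fun x hx => ?_, fun x h1 h2 => ?_,
    fun x h1 h2 => ?_, fun j => ?_⟩
  · simp only [k.eq x hx, k'.eq x hx]
  · simp only [k.per x h1 h2, k'.per x h1 h2]
  · simp only [k.refl x h1 h2, k'.refl x h1 h2]
  · obtain ⟨f, hf, hf'⟩ := k.pole j
    obtain ⟨g, hg, hg'⟩ := k'.pole j
    refine ⟨fun x => f x + g x, hf.add hg, ?_⟩
    filter_upwards [hf', hg'] with x hx hx'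
    rw [hx, hx']
    ring

theorem out_smul {b κ₀ : ℝ} {γ : ℂ → ℂ} {A : Fin 2 → ℂ} (h : Out b κ₀ γ A) (v : ℂ) :
    Out b κ₀ (fun x => v * γ x) (fun j => v * A j) := by
  obtain ⟨δ, Γ, h⟩ := h
  refine ⟨δ, fun x => v * Γ x, h.hδ, h.dΓ.const_mul v, fun x hx => ?_, fun x h1 h2 => ?_,
    fun x h1 h2 => ?_, fun j => ?_⟩
  · simp only [h.eq x hx]
  · simp only [h.per x h1 h2]
  · simp only [h.refl x h1 h2]
  · obtain ⟨f, hf, hf'⟩ := h.pole j
    refine ⟨fun x => v * f x, analyticAt_const.mul hf, ?_⟩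
    filter_upwards [hf'] with x hx
    rw [hx]
    ring

theorem out_sum {b κ₀ : ℝ} {ι : Type*} (s : Finset ι) {γ : ι → ℂ → ℂ} {A : ι → Fin 2 → ℂ}
    (h : ∀ i, Out b κ₀ (γ i) (A i)) (v : ι → ℂ) :
    Out b κ₀ (fun x => ∑ i ∈ s, v i * γ i x) (fun j => ∑ i ∈ s, v i * A i j) := by
  classical
  induction s using Finset.induction_on with
  | empty => simpa using out_zero
  | insert i s hi ih =>
    have := out_add (out_smul (h i) (v i)) ih
    simpa only [Finset.sum_insert hi] using this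

/-- [LIN] -/
theorem lin_of (hA : ABS) (hC : CLS) (hL : LFE) : LIN := by
  intro a c hc hca ε hε g hg
  obtain ⟨b, κ, r, Z, s₁, tI, U, X₀, Ψ₀, L, R, E⟩ := hL a c hc hca
  have hr := L.hr
  have hr' : 0 < min r ε := lt_min hr hε
  have L' := lf_mono L hr' (min_le_left _ _)
  have R' := rx_mono R (min_le_left r ε)
  have E' := el_mono E (min_le_left r ε)
  choose κi γ hκi hd hγ using fun i => strip_ext one_pos
    (fun x => FF_an hc hca.le E (hg i).1 x) (fun x => FF_per E (hg i).2.1 x)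
  obtain ⟨κ₀, hκ₀, hκ₀κ, hκ₀i⟩ : ∃ κ₀ : ℝ, 0 < κ₀ ∧ κ₀ ≤ κ ∧ ∀ i, κ₀ ≤ κi i := by
    obtain ⟨i₀, -, hi₀⟩ := Finset.exists_min_image (Finset.univ : Finset (Fin 6)) κi
      Finset.univ_nonempty
    exact ⟨min κ (κi i₀), lt_min L.hκ (hκi i₀), min_le_left _ _,
      fun i => (min_le_right _ _).trans (hi₀ i (Finset.mem_univ i))⟩
  have hd' : ∀ i, DifferentiableOn ℂ (γ i) {x : ℂ | |x.im| < κ₀} := fun i =>
    (hd i).mono fun x hx => lt_of_lt_of_le hx (hκ₀i i)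
  have hper : ∀ i, ∀ x : ℂ, |x.im| < κ₀ → γ i (x + 1) = γ i x := by
    intro i
    have h1 : DifferentiableOn ℂ (fun x => γ i (x + 1)) {x : ℂ | |x.im| < κ₀} := by
      refine (hd' i).comp (by fun_prop) ?_
      intro x hx
      show |(x + 1).im| < κ₀
      simpa using hx
    refine strip_eq hκ₀ h1 (hd' i) fun x => ?_
    have e : (x : ℂ) + 1 = ((x + 1 : ℝ) : ℂ) := by push_cast; ring
    rw [e, hγ, hγ, FF_per E (hg i).2.1]
  have hout : ∀ i, ∃ A : Fin 2 → ℂ, Out b κ₀ (γ i) A := by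
    intro i
    obtain ⟨δ, Γ, A, h⟩ := hA b κ _ Z s₁ tI U L' X₀ R' κ₀ (γ i) hκ₀ hκ₀κ (hd' i) (hper i)
      (van hc hca.le R' E' (min_le_right r ε) (hg i) (hγ i))
    exact ⟨A, δ, Γ, h⟩
  choose A hout using hout
  -- linear algebra
  let M : Matrix (Fin 5) (Fin 6) ℝ := Matrix.of ![fun i => (A i 0).re, fun i => (A i 0).im,
    fun i => (A i 1).re, fun i => (A i 1).im, fun i => FF a c Ψ₀ (g i) 0]
  have hker : LinearMap.ker M.mulVecLin ≠ ⊥ := by
    apply LinearMap.ker_ne_bot_of_finrank_lt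
    simp
  obtain ⟨v, hv, hv0⟩ := (Submodule.ne_bot_iff _).1 hker
  rw [LinearMap.mem_ker, Matrix.mulVecLin_apply] at hv
  have q0 : ∑ i, v i * (A i 0).re = 0 := by
    have := congrFun hv 0
    simp only [Matrix.mulVec, dotProduct, M, Matrix.of_apply] at this
    simpa [mul_comm] using this
  have q1 : ∑ i, v i * (A i 0).im = 0 := by
    have := congrFun hv 1
    simp only [Matrix.mulVec, dotProduct, M, Matrix.of_apply] at this
    simpa [mul_comm] using this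
  have q2 : ∑ i, v i * (A i 1).re = 0 := by
    have := congrFun hv 2
    simp only [Matrix.mulVec, dotProduct, M, Matrix.of_apply] at this
    simpa [mul_comm] using this
  have q3 : ∑ i, v i * (A i 1).im = 0 := by
    have := congrFun hv 3
    simp only [Matrix.mulVec, dotProduct, M, Matrix.of_apply] at this
    simpa [mul_comm] using this
  have q4 : ∑ i, v i * FF a c Ψ₀ (g i) 0 = 0 := by
    have := congrFun hv 4
    simp only [Matrix.mulVec, dotProduct, M, Matrix.of_apply] at this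
    simpa [mul_comm] using this
  refine ⟨v, hv0, ?_⟩
  obtain ⟨δ, Γ, hΓ⟩ := out_sum Finset.univ hout (fun i => (v i : ℂ))
  have hA0 : ∀ j : Fin 2, ∑ i, (v i : ℂ) * A i j = 0 := by
    intro j
    have hj : j = 0 ∨ j = 1 := by omega
    rcases hj with rfl | rfl
    · apply Complex.ext
      · simpa [Complex.re_sum] using q0
      · simpa [Complex.im_sum] using q1
    · apply Complex.ext
      · simpa [Complex.re_sum] using q2
      · simpa [Complex.im_sum] using q3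
  have hreal : ∀ x : ℝ, ∑ i, (v i : ℂ) * γ i x = ((∑ i, v i * FF a c Ψ₀ (g i) x : ℝ) : ℂ) := by
    intro x
    push_cast
    exact Finset.sum_congr rfl fun i _ => by rw [hγ]
  obtain ⟨C, hC⟩ := hC b δ κ₀ _ Γ _ (L.hκ.trans L.hκb) hκ₀ hΓ hA0 (fun x => by
    rw [hreal, ofReal_im])
  have hC0 : C = 0 := by
    have h1 := hC 0
    rw [hreal, q4] at h1
    rw [← h1]
    simp
  have hF : ∀ x : ℝ, ∑ i, v i * FF a c Ψ₀ (g i) x = 0 := by
    intro x
    have h1 := hC x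
    rw [hreal, hC0] at h1
    exact_mod_cast h1
  have hsurj : Function.Surjective Ψ₀ := surj_of_per (Psi_cont E) Real.two_pi_pos E.per
  intro x
  obtain ⟨y, rfl⟩ := hsurj x
  have h1 := hF y
  unfold FF at h1
  have h2 : (∑ i, v i * g i (Ψ₀ y)) * hE a c (Ψ₀ y) = 0 := by
    rw [← h1, Finset.sum_mul]
    exact Finset.sum_congr rfl fun i _ => by ring
  exact (mul_eq_zero.1 h2).resolve_right (hE_pos hc hca.le _).ne'

/-- the five infinitesimal ellipses are linearly independent -/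
theorem tg_indep {a c : ℝ} (h0 : 0 < c) (h1 : c ≤ a) {v : Fin 5 → ℝ}
    (h : ∀ x, ∑ i, v i * tg a c i x = 0) : v = 0 := by
  have hh : ∀ x, (v 0 * Real.cos x + v 1 * Real.sin x) * hE a c x +
      (v 2 + v 3 * Real.cos (2 * x) + v 4 * Real.sin (2 * x)) = 0 := by
    intro x
    have h2 := h x
    have h3 := (hE_pos h0 h1 x).ne'
    simp only [Fin.sum_univ_five, tg] at h2
    simp at h2
    field_simp at h2
    linarith
  have hpi : ∀ x, hE a c (x + Real.pi) = hE a c x := by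
    intro x
    unfold hE
    rw [Real.cos_add_pi, Real.sin_add_pi]
    congr 1
    ring
  have k1 : ∀ x, v 0 * Real.cos x + v 1 * Real.sin x = 0 := by
    intro x
    have e1 := hh x
    have e2 := hh (x + Real.pi)
    rw [hpi, Real.cos_add_pi, Real.sin_add_pi, show 2 * (x + Real.pi) = 2 * x + 2 * Real.pi by ring,
      Real.cos_add_two_pi, Real.sin_add_two_pi] at e2
    have e3 : (v 0 * Real.cos x + v 1 * Real.sin x) * hE a c x = 0 := by linarith
    exact (mul_eq_zero.1 e3).resolve_right (hE_pos h0 h1 x).ne'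
  have k2 : ∀ x, v 2 + v 3 * Real.cos (2 * x) + v 4 * Real.sin (2 * x) = 0 := by
    intro x
    have e1 := hh x
    rw [k1 x] at e1
    linarith
  have a0 : v 0 = 0 := by simpa using k1 0
  have a1 : v 1 = 0 := by simpa using k1 (Real.pi / 2)
  have b1 : v 2 + v 3 = 0 := by simpa using k2 0
  have b2 : v 2 - v 3 = 0 := by
    have := k2 (Real.pi / 2)
    rw [show 2 * (Real.pi / 2) = Real.pi by ring, Real.cos_pi, Real.sin_pi] at this
    linarith
  have b3 : v 2 + v 4 = 0 := by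
    have := k2 (Real.pi / 4)
    rw [show 2 * (Real.pi / 4) = Real.pi / 2 by ring, Real.cos_pi_div_two,
      Real.sin_pi_div_two] at this
    linarith
  funext i
  fin_cases i
  · exact a0
  · exact a1
  · show v 2 = 0; linarith
  · show v 3 = 0; linarith
  · show v 4 = 0; linarith

/-- [LIN5] -/
theorem lin5_of (hL : LIN) (hM : MEM) : LIN5 := by
  intro a c hc hca ε hε g hg
  obtain ⟨v, hv, hs⟩ := hL a c hc hca ε hε (Fin.cons g (tg a c)) (by
    intro i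
    refine Fin.cases hg (fun j => ?_) i
    exact hM a c hc hca ε hε j)
  simp only [Fin.sum_univ_succ (n := 5), Fin.cons_zero, Fin.cons_succ] at hs
  have h0 : v 0 ≠ 0 := by
    intro h0
    apply hv
    have h1 : (fun i : Fin 5 => v i.succ) = 0 := tg_indep hc hca.le (fun x => by
      have := hs x
      rw [h0, zero_mul, zero_add] at this
      exact this)
    funext i
    refine Fin.cases h0 (fun j => ?_) i
    exact congrFun h1 j
  refine ⟨fun i => -(v i.succ) / v 0, fun x => ?_⟩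
  have h1 := hs x
  have h2 : v 0 * g x = -∑ i : Fin 5, v i.succ * tg a c i x := by linarith
  have h3 : g x = (-∑ i : Fin 5, v i.succ * tg a c i x) / v 0 := by
    rw [← h2]; field_simp
  rw [h3, ← Finset.sum_neg_distrib, Finset.sum_div]
  exact Finset.sum_congr rfl fun i _ => by ring

end Vale.Agent.P097.H500.Lin
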