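import Vale.Agent.P097.FD.Defs

attribute [-instance] ProperSMul.toContinuousSMul IsTopologicalTorsor.toContinuousSMul IdemSemiring.toCanonicallyOrderedAdd IdemSemiring.toMulLeftMono IdemSemiring.toMulRightMono AddQuantale.instAddLeftMono AddQuantale.instAddRightMono Quantale.instMulLeftMono Quantale.instMulRightMono FiniteDimensional.rclike_to_real IsScalarTower.complexToReal FiniteDimensional.complexToReal

set_option linter.all false

/-! # P097, uniform regularity: approximation with uniform constants -/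

namespace Vale.Agent.P097.H500

open Complex MeasureTheory Vale.Agent.P097.Reg
open scoped ComplexConjugate ContDiff

/-- class of smooth periodic functions with bounded derivatives -/
def Cls (A : ℕ → ℝ) (h : ℝ → ℝ) : Prop :=
  ContDiff ℝ ∞ h ∧ (∀ x, h (x + 2 * Real.pi) = h x) ∧ ∀ (i : ℕ) (x : ℝ), |deriv^[i] h x| ≤ A i

/-- approximation by trigonometric polynomials, with fixed constants -/
def App (C0 CN : ℝ) (N : ℕ) (h : ℝ → ℝ) : Prop :=
  ∀ n : ℕ, 1 ≤ n → ∃ G : ℂ → ℂ, Differentiable ℂ G ∧ (∀ z, G (conj z) = conj (G z)) ∧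
        (∀ z, G (z + 2 * Real.pi) = G z) ∧
        (∀ i ≤ 5, ∀ z : ℂ, |z.im| ≤ 1 / n → ‖deriv^[i] G z‖ ≤ C0) ∧
        (∀ i ≤ 2, ∀ x : ℝ, |deriv^[i] h x - (deriv^[i] G x).re| ≤ CN / (n : ℝ) ^ N)

theorem decay_u {A : ℕ → ℝ} {h : ℝ → ℝ} (H : Cls A h) (i k : ℕ) (m : ℤ) :
    |(m : ℝ)| ^ k * ‖R4.cf (deriv^[i] h) m‖ ≤ |A (i + k)| := by
  obtain ⟨hs, hp, hA⟩ := H
  rw [R4.norm_cf_iter hs hp]
  exact R4.cf_le (fun x => (hA (i + k) x).trans (le_abs_self _)) m

theorem sum_u {A : ℕ → ℝ} {h : ℝ → ℝ} (H : Cls A h) (i : ℕ) :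
    ∑' m : ℤ, ‖R4.cf (deriv^[i] h) m‖ ≤ |A i| + |A (i + 2)| * ∑' m : ℤ, 1 / (m : ℝ) ^ 2 := by
  have h1 : HasSum (fun m : ℤ => (if m = 0 then |A i| else 0) + |A (i + 2)| * (1 / (m : ℝ) ^ 2))
      (|A i| + |A (i + 2)| * ∑' m : ℤ, 1 / (m : ℝ) ^ 2) :=
    (hasSum_ite_eq 0 |A i|).add (R4.summable_sq.hasSum.mul_left _)
  have h2 : ∀ m : ℤ, ‖(‖R4.cf (deriv^[i] h) m‖)‖ ≤
      (if m = 0 then |A i| else 0) + |A (i + 2)| * (1 / (m : ℝ) ^ 2) := by
    intro m
    rw [norm_norm]
    by_cases hm : m = 0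
    · subst hm
      have := decay_u H i 0 0
      rw [pow_zero, one_mul, add_zero] at this
      simpa using this
    · rw [if_neg hm, zero_add, mul_one_div, le_div_iff₀ (by positivity)]
      have := decay_u H i 2 m
      rw [sq_abs] at this
      linarith only [this]
  have h3 := tsum_of_norm_bounded h1 h2
  exact (le_abs_self _).trans h3

theorem tail_u {f : ℝ → ℝ} (hf : ContDiff ℝ ∞ f) (hp : ∀ x, f (x + 2 * Real.pi) = f x)
    (i N : ℕ) {B : ℝ} (hB0 : 0 ≤ B)
    (hB : ∀ m : ℤ, |(m : ℝ)| ^ (N + 2) * ‖R4.cf (deriv^[i] f) m‖ ≤ B) :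
    ∀ n : ℕ, 1 ≤ n → ∀ x : ℝ,
      |deriv^[i] f x - (deriv^[i] (R4.tp (R4.cf f) n) x).re| ≤
        (B * ∑' m : ℤ, 1 / (m : ℝ) ^ 2) / (n : ℝ) ^ N := by
  intro n hn x
  have hn0 : (0:ℝ) < n := by exact_mod_cast hn
  have hinv := R4.inversion (hf.iterate_deriv i).continuous (R4.per_iter hp i) (R4.cf_summable hf hp i) x
  set s := Finset.Icc (-(n : ℤ)) n with hsdef
  have hG : deriv^[i] (R4.tp (R4.cf f) n) x
      = ∑ m ∈ s, R4.cf (deriv^[i] f) m * exp (I * m * x) := by
    rw [R4.tp_iter]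
    unfold R4.tp
    apply Finset.sum_congr rfl
    intro m _
    rw [R4.cf_iter hf hp]
  have h1 : HasSum (fun m : ℤ => if m ∈ s then R4.cf (deriv^[i] f) m * exp (I * m * x) else 0)
      (∑ m ∈ s, R4.cf (deriv^[i] f) m * exp (I * m * x)) := by
    have : HasSum (fun m : ℤ => if m ∈ s then R4.cf (deriv^[i] f) m * exp (I * m * x) else 0)
        (∑ m ∈ s, if m ∈ s then R4.cf (deriv^[i] f) m * exp (I * m * x) else 0) :=
      hasSum_sum_of_ne_finset_zero (fun m hm => by simp [hm])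
    convert this using 1
    apply Finset.sum_congr rfl
    intro m hm
    simp [hm]
  have h2 := hinv.sub h1
  rw [← hG] at h2
  have h3 : ∀ m : ℤ, ‖R4.cf (deriv^[i] f) m * exp (I * m * x)
      - (if m ∈ s then R4.cf (deriv^[i] f) m * exp (I * m * x) else 0)‖
      ≤ B / (n : ℝ) ^ N * (1 / (m : ℝ) ^ 2) := by
    intro m
    split_ifs with hm
    · rw [sub_self, norm_zero]
      (clear * - hB0 hn; positivity)
    · rw [sub_zero, norm_mul]
      have he : ‖exp (I * m * x)‖ = 1 := by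
        rw [norm_exp]
        simp
      rw [he, mul_one]
      have hmn : (n : ℝ) ≤ |(m : ℝ)| := by
        have : (n : ℤ) ≤ |m| := by
          by_contra hcon
          push Not at hcon
          apply hm
          rw [hsdef, Finset.mem_Icc]
          rw [abs_lt] at hcon
          omega
        exact_mod_cast this
      have hm0 : (0:ℝ) < |(m : ℝ)| := hn0.trans_le hmn
      have hb := hB m
      rw [pow_add, sq_abs] at hb
      have hm2 : (0:ℝ) < (m : ℝ) ^ 2 := by rw [← sq_abs]; (clear * - hm0; positivity)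
      rw [div_mul_div_comm, mul_one, le_div_iff₀ (by (clear * - hn hm2; positivity))]
      calc ‖R4.cf (deriv^[i] f) m‖ * ((n : ℝ) ^ N * (m : ℝ) ^ 2)
          ≤ ‖R4.cf (deriv^[i] f) m‖ * (|(m : ℝ)| ^ N * (m : ℝ) ^ 2) := by (clear * - hn hmn hm2; gcongr)
        _ ≤ B := by linarith only [hb]
  have h4 := tsum_of_norm_bounded ((R4.summable_sq.mul_left (B / (n : ℝ) ^ N)).hasSum) h3
  rw [h2.tsum_eq, tsum_mul_left] at h4
  have h5 : |deriv^[i] f x - (deriv^[i] (R4.tp (R4.cf f) n) x).re|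
      ≤ ‖((deriv^[i] f x : ℝ) : ℂ) - deriv^[i] (R4.tp (R4.cf f) n) x‖ := by
    have := abs_re_le_norm (((deriv^[i] f x : ℝ) : ℂ) - deriv^[i] (R4.tp (R4.cf f) n) x)
    rwa [sub_re, ofReal_re] at this
  calc _ ≤ _ := h5
    _ ≤ _ := h4
    _ = _ := by ring

theorem exists_approx_u (A : ℕ → ℝ) : ∃ C0 : ℝ, 1 ≤ C0 ∧ ∀ N : ℕ, ∃ CN : ℝ, 1 ≤ CN ∧
    ∀ h : ℝ → ℝ, Cls A h → App C0 CN N h := by
  obtain ⟨Z, hZ⟩ : ∃ Z : ℝ, Z = ∑' m : ℤ, 1 / (m : ℝ) ^ 2 := ⟨_, rfl⟩
  have hZ0 : 0 ≤ Z := by rw [hZ]; exact tsum_nonneg fun m => by positivity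
  have hS : ∀ i : ℕ, 0 ≤ Real.exp 1 * (|A i| + |A (i + 2)| * Z) := fun i => by positivity
  refine ⟨1 + ∑ i ∈ Finset.range 6, Real.exp 1 * (|A i| + |A (i + 2)| * Z), ?_, ?_⟩
  · have : 0 ≤ ∑ i ∈ Finset.range 6, Real.exp 1 * (|A i| + |A (i + 2)| * Z) :=
      Finset.sum_nonneg fun i _ => hS i
    linarith only [this]
  · intro N
    have hC0 : ∀ i : ℕ, 0 ≤ |A (i + (N + 2))| * Z := fun i => by positivity
    refine ⟨1 + ∑ i ∈ Finset.range 3, |A (i + (N + 2))| * Z, ?_, fun h H n hn => ?_⟩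
    · have : 0 ≤ ∑ i ∈ Finset.range 3, |A (i + (N + 2))| * Z :=
        Finset.sum_nonneg fun i _ => hC0 i
      linarith only [this]
    · have hs := H.1
      have hp := H.2.1
      refine ⟨R4.tp (R4.cf h) n, fun z => (R4.tp_hasDerivAt _ n z).differentiableAt,
        R4.tp_conj (R4.cf_conj h) n, R4.tp_per _ n, ?_, ?_⟩
      · intro i hi z hz
        rw [R4.tp_iter]
        have e : (fun m : ℤ => (I * m) ^ i * R4.cf h m) = R4.cf (deriv^[i] h) := by
          ext m; rw [R4.cf_iter hs hp]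
        rw [e]
        have h1 := R4.tp_norm (R4.cf_summable hs hp i) hn hz
        have h0 := sum_u H i
        rw [← hZ] at h0
        have h2 := Finset.single_le_sum (s := Finset.range 6)
          (f := fun i => Real.exp 1 * (|A i| + |A (i + 2)| * Z))
          (fun j _ => hS j) (Finset.mem_range.mpr (by omega : i < 6))
        have h3 := mul_le_mul_of_nonneg_left h0 (Real.exp_pos 1).le
        linarith only [h1, h2, h3]
      · intro i hi x
        have h1 := tail_u hs hp i N (abs_nonneg _) (decay_u H i (N + 2)) n hn x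
        rw [← hZ] at h1
        have h2 := Finset.single_le_sum (s := Finset.range 3)
          (f := fun i => |A (i + (N + 2))| * Z) (fun j _ => hC0 j)
          (Finset.mem_range.mpr (by omega : i < 3))
        have hn0 : (0:ℝ) < n := by exact_mod_cast hn
        refine h1.trans ?_
        gcongr
        linarith only [h2]

/-- uniform version of `coef_tail` -/
theorem coef_tail_u {C0 CN : ℝ} (hC0 : 1 ≤ C0) (hCN : 1 ≤ CN)
    (M0 : ℝ) (N : ℕ) : ∃ C : ℝ, 1 ≤ C ∧ ∀ h : ℝ → ℝ, Continuous h → App C0 CN (2 * N) h →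
      ∀ (M β P : ℝ) (T : CTab M β P), M ≤ M0 →
      ∀ n : ℤ, C ≤ β ^ 2 * |(n : ℝ)| → ‖fc P (wd T h) n‖ ≤ C / |(n : ℝ)| ^ N := by
  set K : ℝ := max M0 1 with hK
  have hK1 : 1 ≤ K := le_max_right _ _
  have hK0 : 0 < K := by linarith
  set B : ℝ := K * (C0 + K) with hB
  have hB0 : 0 ≤ B := by (clear * - hC0; positivity)
  set A1 : ℝ := B * ((2 * N).factorial * K ^ (4 * N)) with hA1
  set A2 : ℝ := K * CN * 4 ^ N with hA2
  have hA1' : 0 ≤ A1 := by (clear * - hC0; positivity)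
  have hA2' : 0 ≤ A2 := by positivity
  refine ⟨4 + A1 + A2, by linarith only [hA1', hA2'], ?_⟩
  intro h hs happ M β P T hM n hn
  have hMK : M ≤ K := hM.trans (le_max_left _ _)
  have hM0 : 0 < M := by linarith only [T.M1]
  have hβ0 := T.β0
  have hβ1 := T.β1
  have hP0 := T.P0
  set a : ℝ := |(n : ℝ)| with ha
  have ha0 : 0 ≤ a := abs_nonneg _
  have ha4 : 4 ≤ β ^ 2 * a := by linarith only [hA1', hA2', hn]
  have hβ2 : β ^ 2 ≤ 1 := by nlinarith only [hβ1, hβ0]
  have ha1 : 4 ≤ a := by nlinarith only [hA1', hA2', hn, ha0, hβ2]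
  -- the square root
  set r : ℝ := Real.sqrt a with hr
  have hr2 : r ^ 2 = a := Real.sq_sqrt ha0
  have hr0 : 0 ≤ r := Real.sqrt_nonneg _
  have hr_ge : 2 ≤ r := by
    by_contra hlt
    rw [not_le] at hlt
    nlinarith only [hr2, hlt, ha1, hr0]
  have hβr : 2 ≤ β * r := by
    by_contra hlt
    rw [not_le] at hlt
    have : (β * r) ^ 2 < 2 ^ 2 := by
      apply pow_lt_pow_left₀ hlt (by (clear * - hβ0 ha1; positivity)) (by norm_num)
    rw [mul_pow, hr2] at this
    linarith only [hA1', hA2', hn, this]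
  set m : ℕ := ⌊r⌋₊ with hm
  have hm_le : (m : ℝ) ≤ r := Nat.floor_le hr0
  have hm_lt : r < m + 1 := Nat.lt_floor_add_one r
  have hm1 : 1 ≤ m := by
    apply Nat.one_le_iff_ne_zero.2
    intro h0
    rw [h0] at hm_lt
    norm_num at hm_lt
    linarith only [hr_ge, hm_lt]
  have hm1' : (1 : ℝ) ≤ m := by exact_mod_cast hm1
  have hm0 : (0 : ℝ) < m := by linarith only [hr_ge, hm_lt]
  have hr2m : r ≤ 2 * m := by linarith only [hr_ge, hm_lt]
  have hβm : 1 ≤ β * m := by nlinarith only [hβ1, hβr, hβ0, hm_lt]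
  obtain ⟨G, hGd, hGc, hGp, hGb, hGa⟩ := happ m hm1
  -- the narrow strip
  set b : ℝ := 1 / (K * m) with hb
  have hb0 : 0 < b := by (clear * - hm1; positivity)
  have hbβ : b ≤ β := by
    rw [hb, div_le_iff₀ (by (clear * - hm1; positivity))]
    linarith only [mul_nonneg (sub_nonneg.2 hK1) (sub_nonneg.2 hβm), hβm, hK1]
  have hsub : strip b ⊆ strip β := by
    intro ζ hζ
    exact lt_of_lt_of_le hζ hbβ
  -- the analytic part
  set L : ℂ → ℂ := fun ζ => (G (T.z ζ) - T.G (T.z ζ)) * (T.lam (T.z ζ))⁻¹ with hL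
  have hzd : DifferentiableOn ℂ T.z (strip β) := fun ζ hζ =>
    (T.dz ζ hζ).differentiableAt.differentiableWithinAt
  have hzm : Set.MapsTo T.z (strip β) T.D := fun ζ hζ => T.zD ζ hζ
  have hlamd : DifferentiableOn ℂ (fun ζ => (T.lam (T.z ζ))⁻¹) (strip β) := by
    apply DifferentiableOn.inv (T.dlam.comp hzd hzm)
    intro ζ hζ
    exact (R8.inv_lam_le T (T.zD ζ hζ)).1
  have hLd : DifferentiableOn ℂ L (strip β) := by
    apply DifferentiableOn.mul _ hlamd
    apply DifferentiableOn.sub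
    · exact hGd.comp_differentiableOn hzd
    · exact T.dG.comp hzd hzm
  have hLp : ∀ ζ ∈ strip b, L (ζ + P) = L ζ := by
    intro ζ hζ
    simp only [hL]
    have hD := T.zD ζ (hsub hζ)
    rw [R8.z_per T (hsub hζ), hGp, T.pG _ hD, T.plam _ hD]
  have hLb : ∀ ζ ∈ strip b, ‖L ζ‖ ≤ B := by
    intro ζ hζ
    have hD := T.zD ζ (hsub hζ)
    have him : |(T.z ζ).im| ≤ 1 / m := by
      have h1 := R8.im_z T (hsub hζ)
      have h2 : |ζ.im| ≤ b := le_of_lt hζ
      calc |(T.z ζ).im| ≤ M * |ζ.im| := h1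
        _ ≤ K * b := by
          apply mul_le_mul hMK h2 (abs_nonneg _) hK0.le
        _ = 1 / m := by rw [hb]; (clear * - hK1 hm1; field_simp)
    have h1 : ‖G (T.z ζ)‖ ≤ C0 := by
      have := hGb 0 (by norm_num) (T.z ζ) him
      simpa only [ge_iff_le, Function.iterate_zero, id_eq] using this
    have h2 : ‖T.G (T.z ζ)‖ ≤ K := (T.bG _ hD).trans hMK
    have h3 : ‖(T.lam (T.z ζ))⁻¹‖ ≤ K := (R8.inv_lam_le T hD).2.trans hMK
    simp only [hL]
    rw [norm_mul]
    calc ‖G (T.z ζ) - T.G (T.z ζ)‖ * ‖(T.lam (T.z ζ))⁻¹‖ ≤ (C0 + K) * K := by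
          apply mul_le_mul _ h3 (norm_nonneg _) (by linarith only [hC0, hK1])
          exact (norm_sub_le _ _).trans (add_le_add h1 h2)
      _ = B := by rw [hB]; ring
  -- continuity on the reals
  have hcz : Continuous fun x : ℝ => T.z (x : ℂ) := by
    rw [continuous_iff_continuousAt]
    intro x
    have := (T.dz _ (R8.real_mem hβ0 x)).continuousAt
    exact ContinuousAt.comp (f := fun y : ℝ => (y : ℂ)) this Complex.continuous_ofReal.continuousAt
  have hcl : Continuous fun x : ℝ => (T.lam (T.z (x : ℂ)))⁻¹ := by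
    rw [continuous_iff_continuousAt]
    intro x
    have h1 : ContinuousAt (fun ζ => (T.lam (T.z ζ))⁻¹) (x : ℂ) := by
      apply (hlamd.differentiableAt _).continuousAt
      have hopen : IsOpen (strip β) := by
        have : strip β = (fun w : ℂ => |w.im|) ⁻¹' (Set.Iio β) := rfl
        rw [this]
        exact isOpen_Iio.preimage (by fun_prop)
      exact hopen.mem_nhds (R8.real_mem hβ0 x)
    exact ContinuousAt.comp (f := fun y : ℝ => (y : ℂ)) h1 Complex.continuous_ofReal.continuousAt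
  have hcL : Continuous fun x : ℝ => L (x : ℂ) := by
    rw [continuous_iff_continuousAt]
    intro x
    have h1 : ContinuousAt L (x : ℂ) := by
      apply (hLd.differentiableAt _).continuousAt
      have hopen : IsOpen (strip β) := by
        have : strip β = (fun w : ℂ => |w.im|) ⁻¹' (Set.Iio β) := rfl
        rw [this]
        exact isOpen_Iio.preimage (by fun_prop)
      exact hopen.mem_nhds (R8.real_mem hβ0 x)
    exact ContinuousAt.comp (f := fun y : ℝ => (y : ℂ)) h1 Complex.continuous_ofReal.continuousAt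
  -- the remainder
  set Rm : ℝ → ℂ := fun x => ((h (T.z x).re - (G (T.z x)).re : ℝ) : ℂ) * (T.lam (T.z x))⁻¹ with hRm
  have hcR : Continuous Rm := by
    have h1 : Continuous fun x : ℝ => h (T.z (x : ℂ)).re :=
      hs.comp (Complex.continuous_re.comp hcz)
    have h2 : Continuous fun x : ℝ => (G (T.z (x : ℂ))).re :=
      Complex.continuous_re.comp (hGd.continuous.comp hcz)
    exact (Complex.continuous_ofReal.comp (h1.sub h2)).mul hcl
  have hdec : wd T h = fun x : ℝ => L (x : ℂ) + Rm x := by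
    funext x
    have hz := R8.z_real T x
    have hD := T.zD _ (R8.real_mem hβ0 x)
    have hGre : G (T.z x) = ((G (T.z x)).re : ℂ) := by
      have h1 := hGc (T.z x)
      have h2 : conj (T.z x) = T.z x := by
        rw [hz]; simp
      rw [h2] at h1
      exact (Complex.conj_eq_iff_re.1 h1.symm).symm
    have hTre : T.G (T.z x) = ((T.G (T.z x)).re : ℂ) := by
      have h1 := T.cG _ hD
      have h2 : conj (T.z x) = T.z x := by
        rw [hz]; simp
      rw [h2] at h1
      exact (Complex.conj_eq_iff_re.1 h1.symm).symm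
    simp only [wd, df, hL, hRm]
    rw [div_eq_mul_inv, ← add_mul]
    congr 1
    have hz' : T.G (((T.z x).re : ℝ) : ℂ) = T.G (T.z x) := by rw [← hz]
    rw [hz']
    conv_rhs => rw [hGre, hTre]
    simp only [Complex.ofReal_re]
    push_cast
    ring
  have hRb : ∀ x, ‖Rm x‖ ≤ K * (CN / (m : ℝ) ^ (2 * N)) := by
    intro x
    have hz := R8.z_real T x
    have hD := T.zD _ (R8.real_mem hβ0 x)
    have h1 := hGa 0 (by norm_num) (T.z x).re
    simp only [Function.iterate_zero, id] at h1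
    rw [← hz] at h1
    simp only [hRm]
    rw [norm_mul, Complex.norm_real, mul_comm]
    apply mul_le_mul ((R8.inv_lam_le T hD).2.trans hMK) h1 (abs_nonneg _) hK0.le
  rw [hdec, R8.fc_add hcL hcR]
  have e1 : ‖fc P (fun x : ℝ => L (x : ℂ)) n‖ ≤ A1 / a ^ N := by
    refine (fc_shift hP0 hb0 (hLd.mono hsub) hLp hLb n).trans ?_
    have hPK : P ≤ 2 * Real.pi * K := by
      have := R8.P_le T
      have hpi := Real.pi_pos
      linarith only [mul_nonneg (sub_nonneg.2 hMK) (le_of_lt (sub_pos.2 hpi)), this]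
    have ht : r / K ^ 2 ≤ 2 * Real.pi * |(n : ℝ)| * b / P := by
      rw [← ha, hb, ← hr2]
      rw [div_le_div_iff₀ (by (clear * -; positivity)) hP0]
      have hpi := Real.pi_pos
      have h1 : 2 * Real.pi * r ^ 2 * (1 / (K * m)) * K ^ 2 = 2 * Real.pi * r ^ 2 * K / m := by
        (clear * - hm1 hK1 hr_ge; field_simp)
      rw [h1, le_div_iff₀ hm0]
      calc r * P * m ≤ r * (2 * Real.pi * K) * r := by
            apply mul_le_mul _ hm_le hm0.le (by (clear * - ha1; positivity))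
            exact mul_le_mul_of_nonneg_left hPK hr0
        _ = 2 * Real.pi * r ^ 2 * K := by ring
    have hexp : Real.exp (-(2 * Real.pi * |(n : ℝ)| * b / P)) ≤
        (2 * N).factorial * K ^ (4 * N) / a ^ N := by
      have h1 : Real.exp (-(2 * Real.pi * |(n : ℝ)| * b / P)) ≤ Real.exp (-(r / K ^ 2)) := by
        apply Real.exp_le_exp.2
        linarith only [ht]
      refine h1.trans ?_
      have h2 := Real.pow_div_factorial_le_exp (r / K ^ 2) (by (clear * - ha1; positivity)) (2 * N)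
      rw [Real.exp_neg, inv_le_comm₀ (Real.exp_pos _) (by (clear * - ha1; positivity))]
      refine le_trans (le_of_eq ?_) h2
      rw [div_pow, inv_div, ← hr2]
      have : K ^ (4 * N) = (K ^ 2) ^ (2 * N) := by
        rw [← pow_mul]; congr 1; ring
      rw [this, ← pow_mul]
      have hfac : ((2 * N).factorial : ℝ) ≠ 0 := by positivity
      (clear * - hK1 hfac hr_ge; field_simp)
    calc B * Real.exp (-(2 * Real.pi * |(n : ℝ)| * b / P))
        ≤ B * ((2 * N).factorial * K ^ (4 * N) / a ^ N) := mul_le_mul_of_nonneg_left hexp hB0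
      _ = A1 / a ^ N := by rw [hA1]; ring
  have e2 : ‖fc P Rm n‖ ≤ A2 / a ^ N := by
    refine (R8.fc_le hP0 hRb n).trans ?_
    have h1 : a ^ N ≤ 4 ^ N * (m : ℝ) ^ (2 * N) := by
      rw [pow_mul, ← mul_pow]
      apply pow_le_pow_left₀ ha0
      rw [← hr2]
      nlinarith only [hm_lt, hr_ge]
    rw [hA2, ← mul_div_assoc, div_le_div_iff₀ (by (clear * - hm1; positivity)) (by (clear * - ha1; positivity))]
    calc K * CN * a ^ N ≤ K * CN * (4 ^ N * (m : ℝ) ^ (2 * N)) := by
          apply mul_le_mul_of_nonneg_left h1 (by (clear * - hCN; positivity))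
      _ = K * CN * 4 ^ N * (m : ℝ) ^ (2 * N) := by ring
  calc ‖fc P (fun x : ℝ => L (x : ℂ)) n + fc P Rm n‖ ≤ A1 / a ^ N + A2 / a ^ N :=
        (norm_add_le _ _).trans (add_le_add e1 e2)
    _ = (A1 + A2) / a ^ N := by ring
    _ ≤ (4 + A1 + A2) / a ^ N := by
        apply div_le_div_of_nonneg_right _ (by (clear * - ha1; positivity))
        linarith only []


end Vale.Agent.P097.H500
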