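import Vale.Agent.P097.H500.Ell
import Vale.Agent.P097.TOP.Defs
import Vale.Agent.P097.LR.Defs

set_option linter.all false

/-! # P097: the uniform collar of compact families of ellipses, and Joachimsthal -/

namespace Vale.Agent.P097.H500.Ell

open Real

/-- translating the table does not change its billiard -/
theorem bdry_trans {h : ℝ → ℝ} {h' : ℝ} (u v x : ℝ) (hh : HasDerivAt h h' x) :
    bdry (fun x => u * cos x + v * sin x + h x) x = bdry h x + ((u : ℂ) + (v : ℂ) * Complex.I) := by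
  have h1 : HasDerivAt (fun x => u * cos x + v * sin x + h x) (u * (-sin x) + v * cos x + h') x :=
    (((hasDerivAt_cos x).const_mul u).add ((hasDerivAt_sin x).const_mul v)).add hh
  unfold bdry
  rw [h1.deriv, hh.deriv, Complex.exp_mul_I, ← Complex.ofReal_cos, ← Complex.ofReal_sin]
  have e := sin_sq_add_cos_sq x
  have e' : ((sin x : ℝ) : ℂ) ^ 2 + ((cos x : ℝ) : ℂ) ^ 2 = 1 := by exact_mod_cast e
  have hI := Complex.I_sq
  push_cast at e' ⊢
  linear_combination ((u : ℂ) + (v : ℂ) * Complex.I) * e' +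
    (-(u : ℂ) * Complex.sin x ^ 2 + (v : ℂ) * Complex.cos x * Complex.sin x) * hI

theorem step_trans {h : ℝ → ℝ} (hh : Differentiable ℝ h) (u v : ℝ) {x δ y δ' : ℝ}
    (H : Step h x δ y δ') : Step (fun x => u * cos x + v * sin x + h x) x δ y δ' := by
  obtain ⟨h1, h2, h3, h4, h5, ℓ, hℓ, h6⟩ := H
  refine ⟨h1, h2, h3, h4, h5, ℓ, hℓ, ?_⟩
  rw [bdry_trans u v y (hh y).hasDerivAt, bdry_trans u v x (hh x).hasDerivAt, h6]
  ring

theorem step_trans_iff {h : ℝ → ℝ} (hh : Differentiable ℝ h) (u v : ℝ) {x δ y δ' : ℝ} :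
    Step (fun x => u * cos x + v * sin x + h x) x δ y δ' ↔ Step h x δ y δ' := by
  refine ⟨fun H => ?_, step_trans hh u v⟩
  have h1 : Differentiable ℝ (fun x => u * cos x + v * sin x + h x) := by fun_prop
  have h2 := step_trans h1 (-u) (-v) H
  have e : (fun x => -u * cos x + -v * sin x + (u * cos x + v * sin x + h x)) = h := by
    funext x; ring
  rwa [e] at h2

theorem invGraph_trans_iff {h f : ℝ → ℝ} (hh : Differentiable ℝ h) (u v : ℝ) :
    InvGraph (fun x => u * cos x + v * sin x + h x) f ↔ InvGraph h f := by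
  unfold InvGraph
  simp only [step_trans_iff hh u v]

theorem differentiable_sf {a b c : ℝ} (H : Ok a b c) : Differentiable ℝ (sf a b c) :=
  fun x => (H.hasDerivAt_sf x).differentiableAt

theorem ok_of_EP {v : Fin 5 → ℝ} (hv : v ∈ TOP.EP) : Ok (v 2) (v 3) (v 4) := hv

theorem EF_eq (v : Fin 5 → ℝ) : TOP.EF v =
    fun x => v 0 * cos x + v 1 * sin x + sf (v 2) (v 3) (v 4) x := rfl

/-- collar size of an ellipse -/
noncomputable def eta (v : Fin 5 → ℝ) : ℝ :=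
  √((v 2 - √(v 3 ^ 2 + v 4 ^ 2)) / (v 2 + √(v 3 ^ 2 + v 4 ^ 2)))

theorem collar_EF {v : Fin 5 → ℝ} (hv : v ∈ TOP.EP) : Collar (TOP.EF v) (eta v) := by
  have H := ok_of_EP hv
  intro ψ δ h0 h1
  obtain ⟨f, hf, hf'⟩ := H.collar ψ δ h0 h1
  exact ⟨f, (invGraph_trans_iff (differentiable_sf H) _ _).2 hf, hf'⟩

theorem eta_pos {v : Fin 5 → ℝ} (hv : v ∈ TOP.EP) : 0 < eta v := by
  have h1 : √(v 3 ^ 2 + v 4 ^ 2) < v 2 := hv
  have h2 := sqrt_nonneg (v 3 ^ 2 + v 4 ^ 2)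
  exact sqrt_pos.2 (div_pos (by linarith) (by linarith))

theorem eta_cont : ContinuousOn eta TOP.EP := by
  intro v hv
  have h1 : √(v 3 ^ 2 + v 4 ^ 2) < v 2 := hv
  have h2 := sqrt_nonneg (v 3 ^ 2 + v 4 ^ 2)
  apply ContinuousAt.continuousWithinAt
  unfold eta
  have c : ContinuousAt (fun v : Fin 5 → ℝ => √(v 3 ^ 2 + v 4 ^ 2)) v := by
    apply Continuous.continuousAt
    fun_prop
  have c2 : ContinuousAt (fun v : Fin 5 → ℝ => v 2) v := by
    apply Continuous.continuousAt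
    fun_prop
  have hne : (fun v : Fin 5 → ℝ => v 2 + √(v 3 ^ 2 + v 4 ^ 2)) v ≠ 0 := by
    show v 2 + √(v 3 ^ 2 + v 4 ^ 2) ≠ 0
    linarith
  exact ((c2.sub c).div (c2.add c) hne).sqrt

/-- compact families of ellipses have a uniform collar -/
theorem collar_unif {K : Set (Fin 5 → ℝ)} (hK : K ⊆ TOP.EP) (hc : IsCompact K) :
    ∃ η : ℝ, 0 < η ∧ ∀ v ∈ K, Collar (TOP.EF v) η := by
  rcases K.eq_empty_or_nonempty with rfl | hne
  · exact ⟨1, one_pos, fun v hv => hv.elim⟩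
  · obtain ⟨w, hw, hmin⟩ := hc.exists_isMinOn hne (eta_cont.mono hK)
    refine ⟨eta w, eta_pos (hK hw), fun v hv ψ δ h0 h1 => ?_⟩
    exact collar_EF (hK hv) ψ δ h0 (h1.trans_le (hmin hv))

/-! ### ellipses in normal position -/

theorem hE_eq (a c : ℝ) : LR.hE a c = sf ((a ^ 2 + c ^ 2) / 2) ((a ^ 2 - c ^ 2) / 2) 0 := by
  funext x
  unfold LR.hE sf
  rw [qf_eq]
  congr 1
  ring

theorem fE_eq (a c J : ℝ) :
    LR.fE a c J = lf ((a ^ 2 + c ^ 2) / 2) ((a ^ 2 - c ^ 2) / 2) 0 J := by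
  funext x
  unfold LR.fE lf
  rw [hE_eq]

theorem root_eq {a c : ℝ} (h0 : 0 < c) (h1 : c ≤ a) :
    √(((a ^ 2 - c ^ 2) / 2) ^ 2 + 0 ^ 2) = (a ^ 2 - c ^ 2) / 2 := by
  rw [show ((a ^ 2 - c ^ 2) / 2) ^ 2 + 0 ^ 2 = ((a ^ 2 - c ^ 2) / 2) ^ 2 by ring]
  exact sqrt_sq (by nlinarith)

theorem ok_hE {a c : ℝ} (h0 : 0 < c) (h1 : c ≤ a) :
    Ok ((a ^ 2 + c ^ 2) / 2) ((a ^ 2 - c ^ 2) / 2) 0 := by
  unfold Ok
  rw [root_eq h0 h1]
  nlinarith

theorem sm_hE {a c J : ℝ} (h0 : 0 < c) (h1 : c ≤ a) (hJ : 0 < J) (hJ1 : J * a < 1) :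
    Sm ((a ^ 2 + c ^ 2) / 2) ((a ^ 2 - c ^ 2) / 2) 0 J := by
  refine ⟨hJ, ?_⟩
  rw [root_eq h0 h1]
  have : 0 < J * a := mul_pos hJ (h0.trans_le h1)
  nlinarith

/-- [JOA] Joachimsthal -/
theorem joa : LR.JOA := by
  intro a c h0 h1 J hJ hJ1
  rw [hE_eq, fE_eq]
  exact (ok_hE h0 h1).invGraph (sm_hE h0 h1 hJ hJ1)

end Vale.Agent.P097.H500.Ell
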