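import Vale.Agent.P097.Defs

set_option linter.all false

/-! # P097: real leaves of an ellipse

`q x = a + b cos 2x + c sin 2x`, `h = sqrt q` is the support function of a centred ellipse; the
graphs `sin δ = J h ψ` are invariant. -/

namespace Vale.Agent.P097.H500.Ell

open Real

/-- square of the support function of a centred ellipse -/
noncomputable def qf (a b c x : ℝ) : ℝ := a + b * cos (2 * x) + c * sin (2 * x)

/-- its polarization -/
noncomputable def bq (a b c x y : ℝ) : ℝ :=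
  a * cos (x - y) + b * cos (x + y) + c * sin (x + y)

/-- support function of a centred ellipse -/
noncomputable def sf (a b c x : ℝ) : ℝ := √(qf a b c x)

variable {a b c : ℝ}

theorem qf_eq (x : ℝ) : qf a b c x =
    (a + b) * cos x ^ 2 + (a - b) * sin x ^ 2 + 2 * c * (sin x * cos x) := by
  unfold qf
  rw [cos_two_mul, sin_two_mul]
  have := sin_sq_add_cos_sq x
  linear_combination (b - a) * this

theorem bq_eq (x y : ℝ) : bq a b c x y = (a + b) * (cos x * cos y) + (a - b) * (sin x * sin y) +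
    c * (sin x * cos y + cos x * sin y) := by
  unfold bq
  rw [cos_sub, cos_add, sin_add]
  ring

theorem bq_sq (x y : ℝ) : bq a b c x y ^ 2 =
    qf a b c x * qf a b c y - (a ^ 2 - b ^ 2 - c ^ 2) * sin (x - y) ^ 2 := by
  rw [bq_eq, qf_eq, qf_eq, sin_sub]
  ring

theorem bq_perp (x y : ℝ) : qf a b c y * bq a b c x (y + π / 2) =
    bq a b c x y * bq a b c y (y + π / 2) + (a ^ 2 - b ^ 2 - c ^ 2) * sin (x - y) := by
  rw [bq_eq, bq_eq, bq_eq, qf_eq, sin_sub, cos_add_pi_div_two, sin_add_pi_div_two]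
  have h := sin_sq_add_cos_sq y
  linear_combination (a ^ 2 - b ^ 2 - c ^ 2) * (sin x * cos y - cos x * sin y) * h

/-- half-derivative of `q` -/
noncomputable def qd (b c x : ℝ) : ℝ := c * cos (2 * x) - b * sin (2 * x)

theorem hasDerivAt_qf (x : ℝ) : HasDerivAt (qf a b c) (2 * qd b c x) x := by
  have h2 : HasDerivAt (fun x : ℝ => 2 * x) 2 x := by
    simpa using (hasDerivAt_id x).const_mul (2 : ℝ)
  have h1 := ((h2.cos.const_mul b).const_add a).add (h2.sin.const_mul c)
  have h3 : HasDerivAt (qf a b c) (b * (-sin (2 * x) * 2) + c * (cos (2 * x) * 2)) x := by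
    refine h1.congr_of_eventuallyEq (Filter.Eventually.of_forall fun y => ?_)
    simp [qf]
  convert h3 using 1
  unfold qd
  ring

theorem bq_form (x y : ℝ) : bq a b c x y = qf a b c x * cos (y - x) + qd b c x * sin (y - x) := by
  have e : x + y = 2 * x + (y - x) := by ring
  unfold bq qf qd
  rw [e, cos_add, sin_add, ← cos_neg (x - y), neg_sub]
  ring

/-- standing hypothesis -/
def Ok (a b c : ℝ) : Prop := √(b ^ 2 + c ^ 2) < a

namespace Ok

variable (H : Ok a b c)
include H

theorem apos : 0 < a := (sqrt_nonneg _).trans_lt H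

theorem Dpos : 0 < a ^ 2 - b ^ 2 - c ^ 2 := by
  have h1 : √(b ^ 2 + c ^ 2) < a := H
  have h0 := sqrt_nonneg (b ^ 2 + c ^ 2)
  have h2 := sq_sqrt (show 0 ≤ b ^ 2 + c ^ 2 by positivity)
  nlinarith

omit H in
theorem osc (x : ℝ) : |b * cos x + c * sin x| ≤ √(b ^ 2 + c ^ 2) := by
  apply abs_le_sqrt
  nlinarith [sq_nonneg (b * sin x - c * cos x), sin_sq_add_cos_sq x]

omit H in
theorem osc' (x : ℝ) : |qd b c x| ≤ √(b ^ 2 + c ^ 2) := by
  apply abs_le_sqrt
  unfold qd
  nlinarith [sq_nonneg (b * cos (2 * x) + c * sin (2 * x)), sin_sq_add_cos_sq (2 * x)]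

omit H in
theorem low (x : ℝ) : a - √(b ^ 2 + c ^ 2) ≤ qf a b c x := by
  have h1 := (abs_le.1 (osc (b := b) (c := c) (2 * x))).1
  unfold qf
  linarith

theorem up (x : ℝ) : qf a b c x ≤ 2 * a := by
  have h1 := (abs_le.1 (osc (b := b) (c := c) (2 * x))).2
  have h2 : √(b ^ 2 + c ^ 2) < a := H
  unfold qf
  linarith

theorem qpos (x : ℝ) : 0 < qf a b c x := by
  have h1 := low (a := a) (b := b) (c := c) x
  have h2 : √(b ^ 2 + c ^ 2) < a := H
  linarith

theorem spos (x : ℝ) : 0 < sf a b c x := sqrt_pos.2 (H.qpos x)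

theorem ssq (x : ℝ) : sf a b c x ^ 2 = qf a b c x := sq_sqrt (H.qpos x).le

theorem hasDerivAt_sf (x : ℝ) : HasDerivAt (sf a b c) (qd b c x / sf a b c x) x := by
  have h1 := (hasDerivAt_qf (a := a) (b := b) (c := c) x).sqrt (H.qpos x).ne'
  have e : 2 * qd b c x / (2 * √(qf a b c x)) = qd b c x / sf a b c x := by
    have := (H.spos x).ne'
    unfold sf at *
    field_simp
  rw [← e]
  exact h1

end Ok

theorem qf_per (x : ℝ) : qf a b c (x + 2 * π) = qf a b c x := by
  unfold qf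
  have e : 2 * (x + 2 * π) = 2 * x + 2 * π + 2 * π := by ring
  rw [e, cos_add_two_pi, cos_add_two_pi, sin_add_two_pi, sin_add_two_pi]

theorem sf_per (x : ℝ) : sf a b c (x + 2 * π) = sf a b c x := by
  unfold sf
  rw [qf_per]

/-- components of the boundary point -/
theorem bdry_comp (H : Ok a b c) (x θ : ℝ) : bdry (sf a b c) x =
    ((bq a b c x θ / sf a b c x : ℝ) : ℂ) * Complex.exp ((θ : ℂ) * Complex.I) +
    ((bq a b c x (θ + π / 2) / sf a b c x : ℝ) : ℂ) *
      (Complex.I * Complex.exp ((θ : ℂ) * Complex.I)) := by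
  have hs := (H.spos x).ne'
  have h1 : bq a b c x θ / sf a b c x =
      sf a b c x * cos (θ - x) + qd b c x / sf a b c x * sin (θ - x) := by
    rw [bq_form, ← H.ssq x]
    field_simp
  have h2 : bq a b c x (θ + π / 2) / sf a b c x =
      -(sf a b c x * sin (θ - x)) + qd b c x / sf a b c x * cos (θ - x) := by
    have e : θ + π / 2 - x = θ - x + π / 2 := by ring
    rw [bq_form, ← H.ssq x, e, cos_add_pi_div_two, sin_add_pi_div_two]
    field_simp
  have h3 : Complex.exp ((x : ℂ) * Complex.I) =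
      (((cos (θ - x) : ℝ) : ℂ) - ((sin (θ - x) : ℝ) : ℂ) * Complex.I) *
        Complex.exp ((θ : ℂ) * Complex.I) := by
    have e : (x : ℂ) * Complex.I = ((x - θ : ℝ) : ℂ) * Complex.I + (θ : ℂ) * Complex.I := by
      push_cast; ring
    rw [e, Complex.exp_add, Complex.exp_mul_I, ← Complex.ofReal_cos, ← Complex.ofReal_sin]
    have e1 : cos (x - θ) = cos (θ - x) := by rw [← cos_neg]; congr 1; ring
    have e2 : sin (x - θ) = -sin (θ - x) := by rw [← sin_neg]; congr 1; ring
    rw [e1, e2]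
    push_cast
    ring
  rw [h1, h2]
  unfold bdry
  rw [(H.hasDerivAt_sf x).deriv, h3]
  push_cast
  have hI := Complex.I_sq
  linear_combination
    (-((qd b c x : ℂ) / (sf a b c x : ℂ)) * Complex.sin (θ - x)) *
      Complex.exp ((θ : ℂ) * Complex.I) * hI

/-- the leaf `sin δ = J h` -/
noncomputable def lf (a b c J x : ℝ) : ℝ := arcsin (J * sf a b c x)

/-- the admissible parameters -/
def Sm (a b c J : ℝ) : Prop := 0 < J ∧ J ^ 2 * (a + √(b ^ 2 + c ^ 2)) < 1

namespace Ok

variable (H : Ok a b c)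
include H

omit H in
theorem up' (x : ℝ) : qf a b c x ≤ a + √(b ^ 2 + c ^ 2) := by
  have h1 := (abs_le.1 (osc (b := b) (c := c) (2 * x))).2
  unfold qf
  linarith

theorem s1 {J : ℝ} (hJ : Sm a b c J) (x : ℝ) : 0 < J * sf a b c x ∧ J * sf a b c x < 1 := by
  obtain ⟨h0, h1⟩ := hJ
  have hs := H.spos x
  refine ⟨mul_pos h0 hs, ?_⟩
  have h2 := H.ssq x
  have h3 := up' (a := a) (b := b) (c := c) x
  have h5 : (J * sf a b c x) ^ 2 < 1 := by
    rw [mul_pow, h2]
    exact (mul_le_mul_of_nonneg_left h3 (sq_nonneg _)).trans_lt h1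
  have h6 := mul_pos h0 hs
  nlinarith

theorem sin_lf {J : ℝ} (hJ : Sm a b c J) (x : ℝ) : sin (lf a b c J x) = J * sf a b c x := by
  obtain ⟨h1, h2⟩ := H.s1 hJ x
  exact sin_arcsin (by linarith) h2.le

theorem lf_pos {J : ℝ} (hJ : Sm a b c J) (x : ℝ) : 0 < lf a b c J x :=
  arcsin_pos.2 (H.s1 hJ x).1

theorem lf_lt {J : ℝ} (hJ : Sm a b c J) (x : ℝ) : lf a b c J x < π / 2 :=
  arcsin_lt_pi_div_two.2 (H.s1 hJ x).2

theorem continuous_sf : Continuous (sf a b c) :=
  continuous_iff_continuousAt.2 fun x => (H.hasDerivAt_sf x).continuousAt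

theorem continuous_lf (J : ℝ) : Continuous (lf a b c J) :=
  continuous_arcsin.comp (continuous_const.mul H.continuous_sf)

omit H in
theorem lf_per (J x : ℝ) : lf a b c J (x + 2 * π) = lf a b c J x := by
  unfold lf
  rw [sf_per]

omit H in
theorem qd_sq (x : ℝ) : qf a b c x ^ 2 + qd b c x ^ 2 =
    2 * a * qf a b c x - (a ^ 2 - b ^ 2 - c ^ 2) := by
  unfold qf qd
  have := sin_sq_add_cos_sq (2 * x)
  linear_combination (b ^ 2 + c ^ 2) * this

/-- positivity of the distance of the line to the centre -/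
theorem wpos {J : ℝ} (hJ : Sm a b c J) {x y : ℝ} (h : |sin (y - x)| = J * sf a b c x)
    (hc : 0 < cos (y - x)) : 0 < bq a b c x y := by
  obtain ⟨h0, h1⟩ := hJ
  have h2 := H.ssq x
  have h3 := up' (a := a) (b := b) (c := c) x
  have h4' : √(b ^ 2 + c ^ 2) < a := H
  have hr := sq_sqrt (show 0 ≤ b ^ 2 + c ^ 2 by positivity)
  have hid := qd_sq (a := a) (b := b) (c := c) x
  have hq := H.qpos x
  set q := qf a b c x with hqdef
  set r := √(b ^ 2 + c ^ 2) with hrdef
  have h6 : sin (y - x) ^ 2 = J ^ 2 * q := by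
    rw [← sq_abs, h, mul_pow, h2]
  have h7 : cos (y - x) ^ 2 = 1 - J ^ 2 * q := by
    have := sin_sq_add_cos_sq (y - x)
    linarith
  have h8 : q ^ 2 + qd b c x ^ 2 ≤ (a + r) * q := by
    have e1 : (a - r) * q ≤ (a - r) * (a + r) := mul_le_mul_of_nonneg_left h3 (by linarith)
    rw [hid]
    nlinarith
  have key : (qd b c x * sin (y - x)) ^ 2 < (q * cos (y - x)) ^ 2 := by
    rw [mul_pow, mul_pow, h6, h7]
    have e2 : J ^ 2 * (q ^ 2 + qd b c x ^ 2) < q := by
      calc J ^ 2 * (q ^ 2 + qd b c x ^ 2) ≤ J ^ 2 * ((a + r) * q) :=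
            mul_le_mul_of_nonneg_left h8 (sq_nonneg _)
        _ = (J ^ 2 * (a + r)) * q := by ring
        _ < 1 * q := mul_lt_mul_of_pos_right h1 hq
        _ = q := one_mul _
    have e4 : q * (J ^ 2 * (q ^ 2 + qd b c x ^ 2)) < q * q := mul_lt_mul_of_pos_left e2 hq
    nlinarith
  have hpos : 0 < q * cos (y - x) := mul_pos hq hc
  have h9 := abs_lt_of_sq_lt_sq key hpos.le
  have h10 := (abs_lt.1 h9).1
  rw [bq_form]
  linarith

omit H in
theorem aux1 {q B A C D J s : ℝ} (hs : s ≠ 0) (hq : q ≠ 0) (e : q * B = A * C + D * -(J * s)) :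
    B / s = (A / s * C - D * J) / q := by
  rw [div_eq_div_iff hs hq]
  have : (A / s * C - D * J) * s = A * C - D * J * s := by field_simp
  rw [this]
  linear_combination e

/-- existence of the next bounce on the leaf -/
theorem exists_next {J : ℝ} (hJ : Sm a b c J) (θ : ℝ) : ∃ y, y = θ + lf a b c J y := by
  have hc : Continuous fun y => y - lf a b c J y := continuous_id.sub (H.continuous_lf J)
  have h1 : θ - lf a b c J θ ≤ θ := by have := H.lf_pos hJ θ; linarith
  have h2 : θ ≤ θ + π / 2 - lf a b c J (θ + π / 2) := by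
    have := H.lf_lt hJ (θ + π / 2); linarith
  have h3 : θ ≤ θ + π / 2 := by have := pi_pos; linarith
  obtain ⟨y, -, hy⟩ := intermediate_value_Icc h3 hc.continuousOn ⟨h1, h2⟩
  exact ⟨y, by simp only at hy; linarith⟩

/-- the step of the billiard in the ellipse, on the leaf -/
theorem step {J : ℝ} (hJ : Sm a b c J) {x y : ℝ}
    (hy : y = x + lf a b c J x + lf a b c J y) :
    Step (sf a b c) x (lf a b c J x) y (lf a b c J y) := by
  have px := H.lf_pos hJ x
  have py := H.lf_pos hJ y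
  have lx := H.lf_lt hJ x
  have ly := H.lf_lt hJ y
  have hpi := pi_pos
  obtain ⟨θ, hθ⟩ : ∃ θ, θ = x + lf a b c J x := ⟨_, rfl⟩
  have ex : θ - x = lf a b c J x := by linarith
  have ey : θ - y = -lf a b c J y := by linarith
  have sx : sin (θ - x) = J * sf a b c x := by rw [ex, H.sin_lf hJ]
  have sy : sin (θ - y) = -(J * sf a b c y) := by rw [ey, sin_neg, H.sin_lf hJ]
  have hsx := H.spos x
  have hsy := H.spos y
  have hqθ := H.qpos θ
  have wx : 0 < bq a b c x θ := by
    refine H.wpos hJ ?_ ?_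
    · rw [sx, abs_of_pos (H.s1 hJ x).1]
    · rw [ex]; exact cos_pos_of_mem_Ioo ⟨by linarith, lx⟩
  have wy : 0 < bq a b c y θ := by
    refine H.wpos hJ ?_ ?_
    · rw [sy, abs_neg, abs_of_pos (H.s1 hJ y).1]
    · rw [ey, cos_neg]; exact cos_pos_of_mem_Ioo ⟨by linarith, ly⟩
  have sx' : sin (x - θ) = -(J * sf a b c x) := by rw [← sx, ← sin_neg]; congr 1; ring
  have sy' : sin (y - θ) = J * sf a b c y := by
    have : sin (y - θ) = -sin (θ - y) := by rw [← sin_neg]; congr 1; ring
    rw [this, sy, neg_neg]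
  -- first component
  have c1 : bq a b c x θ / sf a b c x = bq a b c y θ / sf a b c y := by
    have e1 : (bq a b c x θ / sf a b c x) ^ 2 = (bq a b c y θ / sf a b c y) ^ 2 := by
      rw [div_pow, div_pow, bq_sq, bq_sq, sx', sy', ← H.ssq x, ← H.ssq y]
      field_simp
    have p1 : 0 < bq a b c x θ / sf a b c x := div_pos wx hsx
    have p2 : 0 < bq a b c y θ / sf a b c y := div_pos wy hsy
    exact (sq_eq_sq₀ p1.le p2.le).1 e1
  -- second component
  have c2 : bq a b c y (θ + π / 2) / sf a b c y = bq a b c x (θ + π / 2) / sf a b c x +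
      2 * (a ^ 2 - b ^ 2 - c ^ 2) * J / qf a b c θ := by
    have e1 := bq_perp (a := a) (b := b) (c := c) x θ
    have e2 := bq_perp (a := a) (b := b) (c := c) y θ
    rw [sx'] at e1
    rw [sy'] at e2
    have f1 : bq a b c x (θ + π / 2) / sf a b c x =
        (bq a b c x θ / sf a b c x * bq a b c θ (θ + π / 2) - (a ^ 2 - b ^ 2 - c ^ 2) * J) /
          qf a b c θ := aux1 hsx.ne' hqθ.ne' e1
    have f2 : bq a b c y (θ + π / 2) / sf a b c y =
        (bq a b c y θ / sf a b c y * bq a b c θ (θ + π / 2) + (a ^ 2 - b ^ 2 - c ^ 2) * J) /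
          qf a b c θ := by
      have e2' : qf a b c θ * bq a b c y (θ + π / 2) = bq a b c y θ * bq a b c θ (θ + π / 2) +
          (a ^ 2 - b ^ 2 - c ^ 2) * -((-J) * sf a b c y) := by rw [e2]; ring
      rw [aux1 hsy.ne' hqθ.ne' e2']
      ring
    rw [f1, f2, c1]
    ring
  refine ⟨px, by linarith, py, by linarith, hy, 2 * (a ^ 2 - b ^ 2 - c ^ 2) * J / qf a b c θ,
    div_pos (mul_pos (mul_pos two_pos H.Dpos) hJ.1) hqθ, ?_⟩
  rw [bdry_comp H y θ, bdry_comp H x θ, c2, c1, ← hθ]
  push_cast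
  ring

theorem lf_dom {J : ℝ} (hJ : Sm a b c J) (x : ℝ) : 0 < lf a b c J x ∧ lf a b c J x < π :=
  ⟨H.lf_pos hJ x, by have := H.lf_lt hJ x; have := pi_pos; linarith⟩

/-- the leaf is an invariant graph -/
theorem invGraph {J : ℝ} (hJ : Sm a b c J) : InvGraph (sf a b c) (lf a b c J) := by
  refine ⟨H.continuous_lf J, lf_per J, H.lf_dom hJ, fun x => ?_⟩
  obtain ⟨y, hy⟩ := H.exists_next hJ (x + lf a b c J x)
  exact ⟨y, H.step hJ hy⟩

/-- the collar of an ellipse -/
theorem collar : Collar (sf a b c) √((a - √(b ^ 2 + c ^ 2)) / (a + √(b ^ 2 + c ^ 2))) := by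
  intro x δ h0 h1
  have h4 : √(b ^ 2 + c ^ 2) < a := H
  have h4' : 0 ≤ √(b ^ 2 + c ^ 2) := sqrt_nonneg _
  set r := √(b ^ 2 + c ^ 2) with hr
  have hs := H.spos x
  have hq := H.qpos x
  have hlow := low (a := a) (b := b) (c := c) x
  rw [← hr] at hlow
  have hδ1 : δ < 1 := by
    refine h1.trans_le ?_
    rw [← sqrt_one]
    apply sqrt_le_sqrt
    rw [div_le_one (by linarith)]
    linarith
  have hpi := pi_gt_three
  have hsin : 0 < sin δ := sin_pos_of_pos_of_lt_pi h0 (by linarith)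
  have hsin' : sin δ < δ := sin_lt h0
  have hSm : Sm a b c (sin δ / sf a b c x) := by
    refine ⟨div_pos hsin hs, ?_⟩
    rw [← hr, div_pow, H.ssq x]
    have e1 : δ ^ 2 < (a - r) / (a + r) := by
      have := sq_sqrt (show 0 ≤ (a - r) / (a + r) from div_nonneg (by linarith) (by linarith))
      rw [← this]
      exact pow_lt_pow_left₀ h1 h0.le (by norm_num)
    have e2 : sin δ ^ 2 < (a - r) / (a + r) := by nlinarith
    rw [lt_div_iff₀ (by linarith)] at e2
    rw [div_mul_eq_mul_div, div_lt_one hq]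
    linarith
  refine ⟨lf a b c (sin δ / sf a b c x), H.invGraph hSm, ?_⟩
  unfold lf
  rw [div_mul_cancel₀ _ hs.ne']
  exact arcsin_sin (by linarith) (by linarith)

end Ok

end Vale.Agent.P097.H500.Ell
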