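import Vale.Agent.P097.LR.Defs

set_option linter.all false

/-! # P097 / LR : geometry near an isotropic point: blocks NS0, NS1 -/

namespace Vale.Agent.P097.H500

open Complex Metric Vale.Agent.P097.LR

theorem lip {f : ℂ → ℂ} {ρ M : ℝ} (hρ : 0 < ρ) (hf : DifferentiableOn ℂ f (ball 0 ρ))
    (hM : ∀ z ∈ ball (0 : ℂ) ρ, ‖f z‖ ≤ M) {z z' : ℂ} (hz : ‖z‖ < ρ / 2) (hz' : ‖z'‖ < ρ / 2) :
    ‖f z - f z'‖ ≤ M / (ρ / 2) * ‖z - z'‖ := by
  have hsub : ∀ x ∈ ball (0 : ℂ) (ρ / 2), closedBall x (ρ / 2) ⊆ ball 0 ρ := by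
    intro x hx y hy
    rw [mem_ball_zero_iff] at hx ⊢
    rw [mem_closedBall, dist_eq_norm] at hy
    have : ‖y‖ ≤ ‖y - x‖ + ‖x‖ := by simpa using norm_add_le (y - x) x
    linarith
  have hd : ∀ x ∈ ball (0 : ℂ) (ρ / 2), DifferentiableAt ℂ f x := by
    intro x hx
    apply (hf x _).differentiableAt (isOpen_ball.mem_nhds _) <;>
    exact hsub x hx (mem_closedBall_self (by linarith))
  have hb : ∀ x ∈ ball (0 : ℂ) (ρ / 2), ‖deriv f x‖ ≤ M / (ρ / 2) := by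
    intro x hx
    apply norm_deriv_le_of_forall_mem_sphere_norm_le (by linarith)
    · apply DifferentiableOn.diffContOnCl
      apply hf.mono
      rw [closure_ball x (by linarith)]
      exact hsub x hx
    · intro y hy
      exact hM y (hsub x hx (sphere_subset_closedBall hy))
  exact (convex_ball _ _).norm_image_sub_le_of_norm_deriv_le hd hb
    (mem_ball_zero_iff.2 hz') (mem_ball_zero_iff.2 hz)

variable {x₁ : ℂ} {κ r : ℝ} {s₁ : ℂ} {Z : ℂ → ℂ → ℂ} {tI : ℂ → ℂ} {U : ℂ → ℂ → ℂ}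

/-- the local estimates of `U / U(0,0)` -/
theorem V_est (I : Iso x₁ κ r s₁ Z tI U) : ∃ δ C : ℝ, 0 < δ ∧ δ ≤ κ ∧ δ ≤ r ∧ 0 ≤ C ∧
    ∀ τ w : ℂ, ‖τ‖ < δ → ‖w‖ < δ → |(U τ w / U 0 0).im| ≤ C * (|τ.im| + |w.im|) ∧
      ‖U τ w / U 0 0 - 1‖ ≤ C * (‖τ‖ + ‖w‖) := by
  have hκ := I.hκ
  have hr := I.hr
  have hc : ContinuousOn (fun p : ℂ × ℂ => U p.1 p.2 / U 0 0)
      (closedBall (0 : ℂ) (κ / 2) ×ˢ closedBall (0 : ℂ) (r / 2)) := by
    apply ContinuousOn.div_const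
    apply I.dU.continuousOn.mono
    rintro ⟨a, b⟩ ⟨ha, hb⟩
    simp only [mem_closedBall, dist_zero_right] at ha hb
    exact ⟨by linarith, by linarith⟩
  obtain ⟨M, hM⟩ := ((isCompact_closedBall (0 : ℂ) (κ / 2)).prod
    (isCompact_closedBall (0 : ℂ) (r / 2))).exists_bound_of_continuousOn hc
  obtain ⟨ρ, hρ0, hρκ, hρr⟩ : ∃ ρ : ℝ, 0 < ρ ∧ ρ ≤ κ / 2 ∧ ρ ≤ r / 2 :=
    ⟨min (κ / 2) (r / 2), lt_min (by linarith) (by linarith), min_le_left _ _, min_le_right _ _⟩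
  have hb : ∀ τ w : ℂ, ‖τ‖ < ρ → ‖w‖ < ρ → ‖U τ w / U 0 0‖ ≤ M := by
    intro τ w hτ hw
    apply hM (τ, w)
    refine ⟨?_, ?_⟩ <;> simp only [mem_closedBall, dist_zero_right] <;> linarith
  have hM0 : 0 ≤ M := (norm_nonneg _).trans (hb 0 0 (by simpa using hρ0) (by simpa using hρ0))
  have h1 : ∀ w : ℂ, ‖w‖ < ρ → ∀ τ τ' : ℂ, ‖τ‖ < ρ / 2 → ‖τ'‖ < ρ / 2 →
      ‖U τ w / U 0 0 - U τ' w / U 0 0‖ ≤ M / (ρ / 2) * ‖τ - τ'‖ := by
    intro w hw τ τ' hτ hτ'
    refine lip (f := fun τ => U τ w / U 0 0) hρ0 ?_ ?_ hτ hτ'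
    · apply DifferentiableOn.div_const
      have : DifferentiableOn ℂ (fun τ : ℂ => (τ, w)) (ball (0 : ℂ) ρ) := by fun_prop
      refine I.dU.comp this ?_
      intro y hy
      rw [mem_ball_zero_iff] at hy
      exact ⟨by simpa using (by linarith : ‖y‖ < κ), by simpa using (by linarith : ‖w‖ < r)⟩
    · intro y hy
      rw [mem_ball_zero_iff] at hy
      exact hb y w hy hw
  have h2 : ∀ τ : ℂ, ‖τ‖ < ρ → ∀ w w' : ℂ, ‖w‖ < ρ / 2 → ‖w'‖ < ρ / 2 →
      ‖U τ w / U 0 0 - U τ w' / U 0 0‖ ≤ M / (ρ / 2) * ‖w - w'‖ := by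
    intro τ hτ w w' hw hw'
    refine lip (f := fun w => U τ w / U 0 0) hρ0 ?_ ?_ hw hw'
    · apply DifferentiableOn.div_const
      have : DifferentiableOn ℂ (fun w : ℂ => (τ, w)) (ball (0 : ℂ) ρ) := by fun_prop
      refine I.dU.comp this ?_
      intro y hy
      rw [mem_ball_zero_iff] at hy
      exact ⟨by simpa using (by linarith : ‖τ‖ < κ), by simpa using (by linarith : ‖y‖ < r)⟩
    · intro y hy
      rw [mem_ball_zero_iff] at hy
      exact hb τ y hτ hy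
  have hre : ∀ z : ℂ, ‖((z.re : ℝ) : ℂ)‖ ≤ ‖z‖ := fun z => by
    rw [norm_real]; exact abs_re_le_norm z
  have him : ∀ z : ℂ, ‖z - ((z.re : ℝ) : ℂ)‖ = |z.im| := fun z => by
    have : z - ((z.re : ℝ) : ℂ) = ((z.im : ℝ) : ℂ) * Complex.I := by
      apply Complex.ext <;> simp
    rw [this, norm_mul, Complex.norm_I, mul_one, norm_real, Real.norm_eq_abs]
  refine ⟨ρ / 2, M / (ρ / 2), by linarith, by linarith, by linarith, by positivity, ?_⟩
  intro τ w hτ hw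
  constructor
  · have e0 : (U 0 0).im = 0 := by
      have := I.Ure 0 0 (by simpa using hκ) (by simpa using hr)
      simpa using this
    have e1 : (U ((τ.re : ℝ) : ℂ) ((w.re : ℝ) : ℂ) / U 0 0).im = 0 := by
      have h3 := I.Ure τ.re w.re ((abs_re_le_norm τ).trans_lt (by linarith))
        ((abs_re_le_norm w).trans_lt (by linarith))
      rw [div_im, h3, e0]
      ring
    have e2 : (U τ w / U 0 0).im =
        (U τ w / U 0 0 - U ((τ.re : ℝ) : ℂ) ((w.re : ℝ) : ℂ) / U 0 0).im := by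
      rw [sub_im, e1, sub_zero]
    rw [e2]
    refine (abs_im_le_norm _).trans ?_
    have h3 := h1 w (by linarith) τ ((τ.re : ℝ) : ℂ) hτ ((hre τ).trans_lt hτ)
    have h4 := h2 ((τ.re : ℝ) : ℂ) ((hre τ).trans_lt (by linarith)) w ((w.re : ℝ) : ℂ) hw
      ((hre w).trans_lt hw)
    rw [him] at h3 h4
    have h5 := norm_sub_le_norm_sub_add_norm_sub (U τ w / U 0 0)
      (U ((τ.re : ℝ) : ℂ) w / U 0 0) (U ((τ.re : ℝ) : ℂ) ((w.re : ℝ) : ℂ) / U 0 0)
    linarith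
  · have e1 : U 0 0 / U 0 0 = 1 := div_self I.U0
    have h3 := h1 w (by linarith) τ 0 hτ (by simpa using (by linarith : 0 < ρ / 2))
    have h4 := h2 0 (by simpa using hρ0) w 0 hw (by simpa using (by linarith : 0 < ρ / 2))
    rw [sub_zero] at h3 h4
    rw [← e1]
    have h5 := norm_sub_le_norm_sub_add_norm_sub (U τ w / U 0 0) (U 0 w / U 0 0) (U 0 0 / U 0 0)
    linarith

/-- `tI w - x₁ = O(w²)` -/
theorem tI_est (I : Iso x₁ κ r s₁ Z tI U) : ∃ δ C : ℝ, 0 < δ ∧ δ ≤ r ∧ 0 ≤ C ∧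
    ∀ w : ℂ, ‖w‖ < δ → ‖tI w - x₁‖ ≤ C * ‖w‖ ^ 2 := by
  have hr := I.hr
  have hd := I.dI
  have hd' : DifferentiableOn ℂ (deriv tI) (ball 0 r) := hd.deriv isOpen_ball
  -- the derivative vanishes at `0`
  have hz : deriv tI 0 = 0 := by
    have h1 : HasDerivAt tI (deriv tI 0) 0 :=
      ((hd 0 (mem_ball_self hr)).differentiableAt (isOpen_ball.mem_nhds (mem_ball_self hr))).hasDerivAt
    have h2 : HasDerivAt (fun w : ℂ => tI (-w)) (-deriv tI 0) 0 := by
      have h3 : HasDerivAt tI (deriv tI 0) (-(0 : ℂ)) := by rw [neg_zero]; exact h1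
      have := h3.comp (0 : ℂ) (hasDerivAt_neg (0 : ℂ))
      rw [mul_neg_one] at this
      exact this
    have h4 : HasDerivAt tI (-deriv tI 0) 0 := by
      refine h2.congr_of_eventuallyEq ?_
      filter_upwards [isOpen_ball.mem_nhds (mem_ball_self hr)] with w hw
      exact (I.Iev w (mem_ball_zero_iff.1 hw)).symm
    have h5 := h1.unique h4
    linear_combination h5 / 2
  obtain ⟨M, hM⟩ := (isCompact_closedBall (0 : ℂ) (r / 2)).exists_bound_of_continuousOn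
    (hd'.continuousOn.mono (closedBall_subset_ball (by linarith)))
  have hM0 : 0 ≤ M := (norm_nonneg _).trans (hM 0 (mem_closedBall_self (by linarith)))
  refine ⟨r / 4, M / (r / 2 / 2), by linarith, by linarith, by positivity, ?_⟩
  intro w hw
  have h1 : ∀ z : ℂ, ‖z‖ ≤ ‖w‖ → ‖deriv tI z‖ ≤ M / (r / 2 / 2) * ‖w‖ := by
    intro z hz'
    have := lip (f := deriv tI) (ρ := r / 2) (M := M) (by linarith)
      (hd'.mono (ball_subset_ball (by linarith)))
      (fun y hy => hM y (ball_subset_closedBall hy)) (z := z) (z' := 0) (by linarith)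
      (by simpa using (by linarith : 0 < r / 2 / 2))
    rw [hz, sub_zero, sub_zero] at this
    refine this.trans ?_
    gcongr
  have h2 := (convex_closedBall (0 : ℂ) ‖w‖).norm_image_sub_le_of_norm_deriv_le
    (f := tI) (C := M / (r / 2 / 2) * ‖w‖) (x := 0) (y := w)
    (fun z hz' => by
      rw [mem_closedBall_zero_iff] at hz'
      exact (hd z (mem_ball_zero_iff.2 (by linarith))).differentiableAt
        (isOpen_ball.mem_nhds (mem_ball_zero_iff.2 (by linarith))))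
    (fun z hz' => h1 z (mem_closedBall_zero_iff.1 hz'))
    (mem_closedBall_self (norm_nonneg _)) (mem_closedBall_zero_iff.2 le_rfl)
  rw [I.I0, sub_zero] at h2
  calc ‖tI w - x₁‖ ≤ M / (r / 2 / 2) * ‖w‖ * ‖w‖ := h2
    _ = M / (r / 2 / 2) * ‖w‖ ^ 2 := by ring

/-- core of NS0 -/
theorem core0 {A B V : ℂ} (hB : B.im < 0) (hA : A.im < 0) (hV : 1 / 2 ≤ V.re)
    (h : ‖A‖ * |V.im| < -A.im / 2) (p : ℝ) (hp : 0 ≤ p) : A * B * V ≠ p := by
  intro e
  have hBn : 0 < normSq B := normSq_pos.2 (fun h0 => by rw [h0] at hB; simp at hB)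
  have e1 : (A * V) * ((normSq B : ℝ) : ℂ) = (p : ℂ) * (starRingEnd ℂ) B := by
    rw [normSq_eq_conj_mul_self]
    rw [← e]
    ring
  have e2 := congrArg Complex.im e1
  rw [im_mul_ofReal, im_ofReal_mul, conj_im] at e2
  have e3 : 0 ≤ (A * V).im * normSq B := by
    rw [e2]
    exact mul_nonneg hp (by linarith)
  have e4 : 0 ≤ (A * V).im := nonneg_of_mul_nonneg_left e3 hBn
  rw [mul_im] at e4
  have e5 : A.re * V.im ≤ ‖A‖ * |V.im| := by
    calc A.re * V.im ≤ |A.re * V.im| := le_abs_self _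
      _ = |A.re| * |V.im| := abs_mul _ _
      _ ≤ ‖A‖ * |V.im| := mul_le_mul_of_nonneg_right (abs_re_le_norm A) (abs_nonneg _)
  nlinarith

/-- core of NS1 -/
theorem core1 {σ B V : ℂ} (h : |(B * V).im| * ‖σ‖ < |σ.im| * ‖B * V‖) (p : ℝ) (hp : 0 ≤ p) :
    σ * B * V ≠ p := by
  intro e
  have e0 : σ * (B * V) = p := by rw [← e]; ring
  have hn : ‖σ‖ * ‖B * V‖ = p := by
    rw [← norm_mul, e0, norm_real, Real.norm_of_nonneg hp]
  have hBV : B * V ≠ 0 := by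
    intro h0
    rw [h0] at h
    simp at h
  have hpos : 0 < ‖B * V‖ := norm_pos_iff.2 hBV
  have e1 : σ * ((normSq (B * V) : ℝ) : ℂ) = (p : ℂ) * (starRingEnd ℂ) (B * V) := by
    rw [normSq_eq_conj_mul_self, ← e0]
    ring
  have e2 := congrArg (fun z : ℂ => |z.im|) e1
  simp only [im_mul_ofReal, im_ofReal_mul, conj_im, abs_mul, abs_neg] at e2
  rw [abs_of_nonneg hp, abs_of_nonneg (normSq_nonneg _), normSq_eq_norm_sq, ← hn] at e2
  have e3 : |σ.im| * ‖B * V‖ = |(B * V).im| * ‖σ‖ := by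
    have : (|σ.im| * ‖B * V‖) * ‖B * V‖ = (|(B * V).im| * ‖σ‖) * ‖B * V‖ := by
      linear_combination e2
    exact mul_right_cancel₀ hpos.ne' this
  linarith

theorem NS0_proof : NS0 := by
  intro x₁ κ r s₁ Z tI U I R e hR he
  have hκ := I.hκ
  have hr := I.hr
  obtain ⟨δ, C, hδ, hδκ, hδr, hC, hV⟩ := V_est I
  obtain ⟨δ', C', hδ', hδr', hC', hT⟩ := tI_est I
  have hU := I.U0
  have hUn : 0 < ‖U 0 0‖ := norm_pos_iff.2 hU
  -- choice of the radius
  obtain ⟨d, hd0, hd1, hd2, hd3, hd4, hd5, hd6, hd7⟩ : ∃ d : ℝ, 0 < d ∧ d ≤ 1 ∧ d ≤ δ' ∧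
      C' * d ≤ e ∧ C' * d ≤ 1 ∧ 4 * d ≤ δ ∧ C * (20 * d) ≤ 1 / 4 ∧ 20 * d * (2 * ‖U 0 0‖) < R := by
    refine ⟨min (min 1 δ') (min (min (e / (C' + 1)) (1 / (C' + 1)))
      (min (δ / 4) (min (1 / (80 * (C + 1))) (R / (80 * ‖U 0 0‖))))), ?_, ?_, ?_, ?_, ?_, ?_, ?_, ?_⟩
    · apply lt_min (lt_min one_pos hδ') (lt_min (lt_min (by positivity) (by positivity))
        (lt_min (by positivity) (lt_min (by positivity) (by positivity))))
    · exact (min_le_left _ _).trans (min_le_left _ _)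
    · exact (min_le_left _ _).trans (min_le_right _ _)
    · have h : min (min 1 δ') (min (min (e / (C' + 1)) (1 / (C' + 1)))
        (min (δ / 4) (min (1 / (80 * (C + 1))) (R / (80 * ‖U 0 0‖))))) ≤ e / (C' + 1) :=
        (min_le_right _ _).trans ((min_le_left _ _).trans (min_le_left _ _))
      calc C' * _ ≤ C' * (e / (C' + 1)) := mul_le_mul_of_nonneg_left h hC'
        _ ≤ e := by rw [← mul_div_assoc, div_le_iff₀ (by positivity)]; nlinarith
    · have h : min (min 1 δ') (min (min (e / (C' + 1)) (1 / (C' + 1)))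
        (min (δ / 4) (min (1 / (80 * (C + 1))) (R / (80 * ‖U 0 0‖))))) ≤ 1 / (C' + 1) :=
        (min_le_right _ _).trans ((min_le_left _ _).trans (min_le_right _ _))
      calc C' * _ ≤ C' * (1 / (C' + 1)) := mul_le_mul_of_nonneg_left h hC'
        _ ≤ 1 := by rw [← mul_div_assoc, div_le_iff₀ (by positivity)]; nlinarith
    · have h : min (min 1 δ') (min (min (e / (C' + 1)) (1 / (C' + 1)))
        (min (δ / 4) (min (1 / (80 * (C + 1))) (R / (80 * ‖U 0 0‖))))) ≤ δ / 4 :=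
        (min_le_right _ _).trans ((min_le_right _ _).trans (min_le_left _ _))
      linarith
    · have h : min (min 1 δ') (min (min (e / (C' + 1)) (1 / (C' + 1)))
        (min (δ / 4) (min (1 / (80 * (C + 1))) (R / (80 * ‖U 0 0‖))))) ≤ 1 / (80 * (C + 1)) :=
        (min_le_right _ _).trans ((min_le_right _ _).trans ((min_le_right _ _).trans
          (min_le_left _ _)))
      calc C * (20 * _) ≤ C * (20 * (1 / (80 * (C + 1)))) := by gcongr
        _ = (C / (C + 1)) * (1 / 4) := by field_simp; ring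
        _ ≤ 1 * (1 / 4) := by
          apply mul_le_mul_of_nonneg_right _ (by norm_num)
          rw [div_le_one (by positivity)]; linarith
        _ = 1 / 4 := one_mul _
    · have h : min (min 1 δ') (min (min (e / (C' + 1)) (1 / (C' + 1)))
        (min (δ / 4) (min (1 / (80 * (C + 1))) (R / (80 * ‖U 0 0‖))))) ≤ R / (80 * ‖U 0 0‖) :=
        (min_le_right _ _).trans ((min_le_right _ _).trans ((min_le_right _ _).trans
          (min_le_right _ _)))
      calc 20 * _ * (2 * ‖U 0 0‖) ≤ 20 * (R / (80 * ‖U 0 0‖)) * (2 * ‖U 0 0‖) := by gcongr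
        _ = R / 2 := by field_simp; ring
        _ < R := by linarith
  refine ⟨d, hd0, fun t w ht hw him => ?_⟩
  obtain ⟨τ, hτ⟩ : ∃ τ, τ = t - tI w := ⟨_, rfl⟩
  have ht' : t = tI w + τ := by rw [hτ]; ring
  have hTw := hT w (hw.trans_le hd2)
  have hw0 := norm_nonneg w
  have hTw' : ‖tI w - x₁‖ ≤ e * ‖w‖ ∧ ‖tI w - x₁‖ ≤ d := by
    have h1 : C' * ‖w‖ ≤ C' * d := mul_le_mul_of_nonneg_left hw.le hC'
    constructor
    · calc ‖tI w - x₁‖ ≤ C' * ‖w‖ ^ 2 := hTw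
        _ = (C' * ‖w‖) * ‖w‖ := by ring
        _ ≤ e * ‖w‖ := mul_le_mul_of_nonneg_right (h1.trans hd3) hw0
    · calc ‖tI w - x₁‖ ≤ C' * ‖w‖ ^ 2 := hTw
        _ = (C' * ‖w‖) * ‖w‖ := by ring
        _ ≤ 1 * ‖w‖ := mul_le_mul_of_nonneg_right (h1.trans hd4) hw0
        _ ≤ d := by linarith
  have hτn : ‖τ‖ < 2 * d := by
    have : τ = (t - x₁) - (tI w - x₁) := by rw [hτ]; ring
    rw [this]
    exact (norm_sub_le _ _).trans_lt (by linarith [hTw'.2])
  have hτi : τ.im < -(|w.im| / 2) := by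
    have h1 : τ.im = t.im - x₁.im - (tI w - x₁).im := by rw [hτ, sub_im, sub_im]; ring
    have h2 := neg_le_of_abs_le ((abs_im_le_norm (tI w - x₁)).trans hTw'.1)
    rw [h1]
    linarith
  have hτ0 : τ.im < 0 := lt_of_lt_of_le hτi (by have := abs_nonneg w.im; linarith)
  obtain ⟨hV1, hV2⟩ := hV τ w (by linarith) (by linarith)
  obtain ⟨V, hVd⟩ : ∃ V, V = U τ w / U 0 0 := ⟨_, rfl⟩
  rw [← hVd] at hV1 hV2
  have hVre : 1 / 2 ≤ V.re := by
    have h1 : ‖V - 1‖ ≤ 1 / 2 := by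
      refine hV2.trans ?_
      calc C * (‖τ‖ + ‖w‖) ≤ C * (20 * d) := mul_le_mul_of_nonneg_left (by linarith) hC
        _ ≤ 1 / 2 := by linarith
    have h2 := neg_le_of_abs_le ((abs_re_le_norm (V - 1)).trans h1)
    rw [sub_re, one_re] at h2
    linarith
  have hVim : |V.im| ≤ C * (3 * |τ.im|) := by
    refine hV1.trans (mul_le_mul_of_nonneg_left ?_ hC)
    rw [abs_of_neg hτ0]
    linarith
  have hA : (τ - w / 2).im < 0 := by
    have : (τ - w / 2).im = τ.im - w.im / 2 := by simp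
    rw [this]
    have := neg_abs_le w.im
    linarith
  have hB : (τ + w / 2).im < 0 := by
    have : (τ + w / 2).im = τ.im + w.im / 2 := by simp
    rw [this]
    have := le_abs_self w.im
    linarith
  have hAn : ‖τ - w / 2‖ ≤ 3 * d := by
    refine (norm_sub_le _ _).trans ?_
    rw [norm_div, Complex.norm_ofNat]
    linarith
  have hBn : ‖τ + w / 2‖ ≤ 3 * d := by
    refine (norm_add_le _ _).trans ?_
    rw [norm_div, Complex.norm_ofNat]
    linarith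
  have hZ : Z t w - s₁ = (τ - w / 2) * (τ + w / 2) * V * U 0 0 := by
    rw [ht', I.loc τ w (by linarith) (by linarith), hVd]
    field_simp
    ring
  have hsm : 3 * d * |V.im| < |τ.im| / 2 := by
    have h3 : 0 < |τ.im| := abs_pos.2 hτ0.ne
    calc 3 * d * |V.im| ≤ 3 * d * (C * (3 * |τ.im|)) :=
          mul_le_mul_of_nonneg_left hVim (by positivity)
      _ = (C * (20 * d)) * (9 / 20 * |τ.im|) := by ring
      _ ≤ 1 / 4 * (9 / 20 * |τ.im|) := mul_le_mul_of_nonneg_right hd6 (by positivity)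
      _ < |τ.im| / 2 := by linarith
  refine ⟨?_, ?_⟩
  · rw [hZ, norm_mul, norm_mul, norm_mul]
    have h1 : ‖V‖ ≤ 2 := by
      have h2 : ‖V - 1‖ ≤ 1 := by
        refine hV2.trans ?_
        calc C * (‖τ‖ + ‖w‖) ≤ C * (20 * d) := mul_le_mul_of_nonneg_left (by linarith) hC
          _ ≤ 1 := by linarith
      calc ‖V‖ = ‖(V - 1) + 1‖ := by rw [sub_add_cancel]
        _ ≤ ‖V - 1‖ + ‖(1 : ℂ)‖ := norm_add_le _ _
        _ ≤ 2 := by rw [norm_one]; linarith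
    have h2 : ‖τ - w / 2‖ * ‖τ + w / 2‖ ≤ 9 * d := by
      calc ‖τ - w / 2‖ * ‖τ + w / 2‖ ≤ (3 * d) * (3 * d) :=
            mul_le_mul hAn hBn (norm_nonneg _) (by positivity)
        _ = (9 * d) * d := by ring
        _ ≤ (9 * d) * 1 := mul_le_mul_of_nonneg_left hd1 (by positivity)
        _ = 9 * d := mul_one _
    calc ‖τ - w / 2‖ * ‖τ + w / 2‖ * ‖V‖ * ‖U 0 0‖ ≤ (9 * d) * 2 * ‖U 0 0‖ := by gcongr
      _ ≤ 20 * d * (2 * ‖U 0 0‖) := by nlinarith
      _ < R := hd7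
  · intro p hp h
    rw [hZ] at h
    have h' : (τ - w / 2) * (τ + w / 2) * V = p := mul_right_cancel₀ hU h
    have hsum : (τ - w / 2).im + (τ + w / 2).im = 2 * τ.im := by
      simp; ring
    rcases le_total (τ - w / 2).im (τ + w / 2).im with hle | hle
    · refine core0 hB hA hVre ?_ p hp h'
      have h1 : (τ - w / 2).im ≤ τ.im := by linarith
      calc ‖τ - w / 2‖ * |V.im| ≤ 3 * d * |V.im| :=
            mul_le_mul_of_nonneg_right hAn (abs_nonneg _)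
        _ < |τ.im| / 2 := hsm
        _ ≤ -(τ - w / 2).im / 2 := by rw [abs_of_neg hτ0]; linarith
    · refine core0 hA hB hVre ?_ p hp (by rw [← h']; ring)
      have h1 : (τ + w / 2).im ≤ τ.im := by linarith
      calc ‖τ + w / 2‖ * |V.im| ≤ 3 * d * |V.im| :=
            mul_le_mul_of_nonneg_right hBn (abs_nonneg _)
        _ < |τ.im| / 2 := hsm
        _ ≤ -(τ + w / 2).im / 2 := by rw [abs_of_neg hτ0]; linarith

/-- the estimate behind NS1: `σ (σ + B') V` avoids `[0, ∞)` -/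
theorem core1' {σ w B V : ℂ} {w₀ C : ℝ} (hw₀ : 0 < w₀) (hC : 0 ≤ C) (hσ : ‖σ‖ ≤ w₀ / 16)
    (hw : ‖w - w₀‖ ≤ w₀ / 32) (hi : σ.im < -(|w.im| / 8)) (hB : B = σ + w ∨ B = σ - w)
    (hV : |V.im| ≤ C * (13 * |σ.im|)) (hV1 : ‖V - 1‖ ≤ 1 / 10) (hCw : C * (20 * w₀) ≤ 1 / 10)
    (p : ℝ) (hp : 0 ≤ p) : σ * B * V ≠ p := by
  have hσ0 : σ.im < 0 := lt_of_lt_of_le hi (by have := abs_nonneg w.im; linarith)
  have hs : |σ.im| = -σ.im := abs_of_neg hσ0
  obtain ⟨s, hsd⟩ : ∃ s, s = |σ.im| := ⟨_, rfl⟩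
  have hs0 : 0 < s := by rw [hsd]; exact abs_pos.2 hσ0.ne
  rw [← hsd] at hV
  have hwi : |w.im| ≤ 8 * s := by rw [hsd, hs]; linarith
  have hwn1 : ‖w‖ ≤ w₀ * (33 / 32) := by
    calc ‖w‖ = ‖(w - w₀) + w₀‖ := by rw [sub_add_cancel]
      _ ≤ ‖w - w₀‖ + ‖(w₀ : ℂ)‖ := norm_add_le _ _
      _ ≤ w₀ / 32 + w₀ := by rw [norm_real, Real.norm_of_nonneg hw₀.le]; linarith
      _ = w₀ * (33 / 32) := by ring
  have hwn2 : w₀ * (31 / 32) ≤ ‖w‖ := by
    have h1 : ‖(w₀ : ℂ)‖ ≤ ‖w‖ + ‖w - w₀‖ := by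
      calc ‖(w₀ : ℂ)‖ = ‖w - (w - w₀)‖ := by rw [sub_sub_cancel]
        _ ≤ ‖w‖ + ‖w - w₀‖ := norm_sub_le _ _
    rw [norm_real, Real.norm_of_nonneg hw₀.le] at h1
    linarith
  have hBn1 : ‖B‖ ≤ w₀ * (35 / 32) := by
    rcases hB with rfl | rfl
    · exact (norm_add_le _ _).trans (by linarith)
    · exact (norm_sub_le _ _).trans (by linarith)
  have hBn2 : w₀ * (29 / 32) ≤ ‖B‖ := by
    rcases hB with rfl | rfl
    · have h1 : ‖w‖ ≤ ‖σ + w‖ + ‖σ‖ := by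
        calc ‖w‖ = ‖(σ + w) - σ‖ := by rw [add_sub_cancel_left]
          _ ≤ ‖σ + w‖ + ‖σ‖ := norm_sub_le _ _
      linarith
    · have h1 : ‖w‖ ≤ ‖σ‖ + ‖σ - w‖ := by
        calc ‖w‖ = ‖σ - (σ - w)‖ := by rw [sub_sub_cancel]
          _ ≤ ‖σ‖ + ‖σ - w‖ := norm_sub_le _ _
      linarith
  have hBi : |B.im| ≤ 9 * s := by
    rcases hB with rfl | rfl
    · rw [add_im]
      exact (abs_add_le _ _).trans (by rw [← hsd]; linarith)
    · rw [sub_im]
      exact (abs_sub _ _).trans (by rw [← hsd]; linarith)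
  have hVr : |V.re| ≤ 11 / 10 := by
    have h1 := (abs_re_le_norm (V - 1)).trans hV1
    rw [sub_re, one_re, abs_le] at h1
    rw [abs_le]
    constructor <;> linarith
  have hVn : 9 / 10 ≤ ‖V‖ := by
    have h1 : ‖(1 : ℂ)‖ ≤ ‖V‖ + ‖V - 1‖ := by
      calc ‖(1 : ℂ)‖ = ‖V - (V - 1)‖ := by rw [sub_sub_cancel]
        _ ≤ ‖V‖ + ‖V - 1‖ := norm_sub_le _ _
    rw [norm_one] at h1
    linarith
  have hBV : |(B * V).im| ≤ 11 * s := by
    rw [mul_im]
    calc |B.re * V.im + B.im * V.re| ≤ |B.re * V.im| + |B.im * V.re| := abs_add_le _ _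
      _ = |B.re| * |V.im| + |B.im| * |V.re| := by rw [abs_mul, abs_mul]
      _ ≤ (w₀ * (35 / 32)) * (C * (13 * s)) + 9 * s * (11 / 10) := by
          apply add_le_add
          · exact mul_le_mul ((abs_re_le_norm B).trans hBn1) hV (abs_nonneg _) (by positivity)
          · exact mul_le_mul hBi hVr (abs_nonneg _) (by positivity)
      _ = (C * (20 * w₀)) * (13 * 35 / 640 * s) + 9 * s * (11 / 10) := by ring
      _ ≤ 1 / 10 * (13 * 35 / 640 * s) + 9 * s * (11 / 10) := by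
          apply add_le_add_left
          exact mul_le_mul_of_nonneg_right hCw (by positivity)
      _ ≤ 11 * s := by linarith
  have hBVn : w₀ * (29 / 32) * (9 / 10) ≤ ‖B * V‖ := by
    rw [norm_mul]
    exact mul_le_mul hBn2 hVn (by norm_num) (norm_nonneg _)
  refine core1 ?_ p hp
  rw [← hsd]
  calc |(B * V).im| * ‖σ‖ ≤ (11 * s) * (w₀ / 16) :=
        mul_le_mul hBV hσ (norm_nonneg _) (by positivity)
    _ < s * (w₀ * (29 / 32) * (9 / 10)) := by nlinarith [mul_pos hs0 hw₀]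
    _ ≤ s * ‖B * V‖ := mul_le_mul_of_nonneg_left hBVn hs0.le

theorem NS1_proof : NS1 := by
  intro x₁ κ r s₁ Z tI U I R hR
  have hκ := I.hκ
  have hr := I.hr
  obtain ⟨δ, C, hδ, hδκ, hδr, hC, hV⟩ := V_est I
  have hU := I.U0
  have hUn : 0 < ‖U 0 0‖ := norm_pos_iff.2 hU
  obtain ⟨d, hd0, hd1, hd2, hd3, hd4⟩ : ∃ d : ℝ, 0 < d ∧ d ≤ 1 ∧ 2 * d ≤ δ ∧
      C * (20 * d) ≤ 1 / 10 ∧ d * (2 * ‖U 0 0‖) < R := by
    refine ⟨min (min 1 (δ / 2)) (min (1 / (200 * (C + 1))) (R / (4 * ‖U 0 0‖))), ?_, ?_, ?_, ?_,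
      ?_⟩
    · exact lt_min (lt_min one_pos (by positivity)) (lt_min (by positivity) (by positivity))
    · exact (min_le_left _ _).trans (min_le_left _ _)
    · have h : min (min 1 (δ / 2)) (min (1 / (200 * (C + 1))) (R / (4 * ‖U 0 0‖))) ≤ δ / 2 :=
        (min_le_left _ _).trans (min_le_right _ _)
      linarith
    · have h : min (min 1 (δ / 2)) (min (1 / (200 * (C + 1))) (R / (4 * ‖U 0 0‖))) ≤
          1 / (200 * (C + 1)) := (min_le_right _ _).trans (min_le_left _ _)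
      calc C * (20 * _) ≤ C * (20 * (1 / (200 * (C + 1)))) := by gcongr
        _ = (C / (C + 1)) * (1 / 10) := by field_simp; ring
        _ ≤ 1 * (1 / 10) := by
          apply mul_le_mul_of_nonneg_right _ (by norm_num)
          rw [div_le_one (by positivity)]; linarith
        _ = 1 / 10 := one_mul _
    · have h : min (min 1 (δ / 2)) (min (1 / (200 * (C + 1))) (R / (4 * ‖U 0 0‖))) ≤
          R / (4 * ‖U 0 0‖) := (min_le_right _ _).trans (min_le_right _ _)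
      calc _ * (2 * ‖U 0 0‖) ≤ (R / (4 * ‖U 0 0‖)) * (2 * ‖U 0 0‖) := by gcongr
        _ = R / 2 := by field_simp; ring
        _ < R := by linarith
  refine ⟨d, hd0, fun w₀ hw₀ hw₀d σ w hσ hw hi => ?_⟩
  have hσ0 : σ.im < 0 := lt_of_lt_of_le hi (by have := abs_nonneg w.im; linarith)
  have hs : |σ.im| = -σ.im := abs_of_neg hσ0
  have hwn1 : ‖w‖ ≤ w₀ * (33 / 32) := by
    calc ‖w‖ = ‖(w - w₀) + w₀‖ := by rw [sub_add_cancel]
      _ ≤ ‖w - w₀‖ + ‖(w₀ : ℂ)‖ := norm_add_le _ _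
      _ ≤ w₀ / 32 + w₀ := by rw [norm_real, Real.norm_of_nonneg hw₀.le]; linarith
      _ = w₀ * (33 / 32) := by ring
  -- both signs at once
  have key : ∀ θ : ℂ, (θ = 1 ∨ θ = -1) → Z (tI w + (σ + θ * (w / 2))) w ∈ SB s₁ (U 0 0) R := by
    intro θ hθ
    have hθn : ‖θ‖ = 1 := by rcases hθ with rfl | rfl <;> simp
    have hθ2 : θ ^ 2 = 1 := by rcases hθ with rfl | rfl <;> norm_num
    have hτn : ‖σ + θ * (w / 2)‖ ≤ w₀ * (37 / 64) := by
      refine (norm_add_le _ _).trans ?_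
      rw [norm_mul, hθn, one_mul, norm_div, Complex.norm_ofNat]
      linarith
    have hτi : |(σ + θ * (w / 2)).im| ≤ 5 * |σ.im| := by
      have h1 : |(θ * (w / 2)).im| = |w.im| / 2 := by
        rcases hθ with rfl | rfl
        · rw [one_mul]
          simp [abs_div]
        · rw [neg_one_mul, neg_im, abs_neg]
          simp [abs_div]
      rw [add_im]
      refine (abs_add_le _ _).trans ?_
      rw [h1, hs]
      linarith
    obtain ⟨hV1, hV2⟩ := hV (σ + θ * (w / 2)) w (by linarith) (by linarith)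
    obtain ⟨V, hVd⟩ : ∃ V, V = U (σ + θ * (w / 2)) w / U 0 0 := ⟨_, rfl⟩
    rw [← hVd] at hV1 hV2
    have hV3 : |V.im| ≤ C * (13 * |σ.im|) := by
      refine hV1.trans (mul_le_mul_of_nonneg_left ?_ hC)
      have : |w.im| ≤ 8 * |σ.im| := by rw [hs]; linarith
      linarith
    have hCw : C * (20 * w₀) ≤ 1 / 10 := by
      refine le_trans (mul_le_mul_of_nonneg_left ?_ hC) hd3
      linarith
    have hV4 : ‖V - 1‖ ≤ 1 / 10 := by
      refine hV2.trans (le_trans (mul_le_mul_of_nonneg_left ?_ hC) hCw)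
      linarith
    have hB : σ + θ * w = σ + w ∨ σ + θ * w = σ - w := by
      rcases hθ with rfl | rfl
      · left; ring
      · right; ring
    have hZ : Z (tI w + (σ + θ * (w / 2))) w - s₁ = σ * (σ + θ * w) * V * U 0 0 := by
      obtain ⟨u, hu⟩ : ∃ u, u = U (σ + θ * (w / 2)) w := ⟨_, rfl⟩
      rw [I.loc _ w (by linarith) (by linarith), hVd, ← hu, mul_assoc (σ * (σ + θ * w)),
        div_mul_cancel₀ _ hU]
      linear_combination (w ^ 2 / 4) * u * hθ2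
    refine ⟨?_, ?_⟩
    · rw [hZ, norm_mul, norm_mul, norm_mul]
      have h1 : ‖V‖ ≤ 11 / 10 := by
        calc ‖V‖ = ‖(V - 1) + 1‖ := by rw [sub_add_cancel]
          _ ≤ ‖V - 1‖ + ‖(1 : ℂ)‖ := norm_add_le _ _
          _ ≤ 11 / 10 := by rw [norm_one]; linarith
      have h2 : ‖σ + θ * w‖ ≤ w₀ * (35 / 32) := by
        refine (norm_add_le _ _).trans ?_
        rw [norm_mul, hθn, one_mul]
        linarith
      calc ‖σ‖ * ‖σ + θ * w‖ * ‖V‖ * ‖U 0 0‖
          ≤ (w₀ / 16) * (w₀ * (35 / 32)) * (11 / 10) * ‖U 0 0‖ := by gcongr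
        _ ≤ d * (2 * ‖U 0 0‖) := by
            have : (w₀ / 16) * (w₀ * (35 / 32)) * (11 / 10) ≤ d * 2 := by
              have : w₀ * w₀ ≤ d * 1 := mul_le_mul hw₀d.le (by linarith) hw₀.le hd0.le
              nlinarith
            calc (w₀ / 16) * (w₀ * (35 / 32)) * (11 / 10) * ‖U 0 0‖ ≤ (d * 2) * ‖U 0 0‖ :=
                  mul_le_mul_of_nonneg_right this hUn.le
              _ = d * (2 * ‖U 0 0‖) := by ring
        _ < R := hd4
    · intro p hp h
      rw [hZ] at h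
      have h' : σ * (σ + θ * w) * V = p := mul_right_cancel₀ hU h
      exact core1' hw₀ hC hσ hw hi hB hV3 hV4 hCw p hp h'
  have k1 := key 1 (Or.inl rfl)
  have k2 := key (-1) (Or.inr rfl)
  have e1 : tI w + σ + w / 2 = tI w + (σ + 1 * (w / 2)) := by ring
  have e2 : tI w + σ - w / 2 = tI w + (σ + -1 * (w / 2)) := by ring
  rw [e1, e2]
  exact ⟨k1, k2⟩

end Vale.Agent.P097.H500
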