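import Vale.Agent.P097.H500.Iso

set_option linter.all false

/-! # P097 / LR : block PHI -/

namespace Vale.Agent.P097.H500

open Complex Metric Vale.Agent.P097.LR Filter Topology

theorem loc_inv {χ : ℂ → ℂ} {d : ℝ} (hd : 0 < d) (hχ : DifferentiableOn ℂ χ (ball 0 d))
    (h0 : χ 0 = 0) {c : ℂ} (hc : c ≠ 0) (h1 : HasDerivAt χ c 0) (e : ℝ) (he : 0 < e) :
    ∃ (g : ℂ → ℂ) (ρ : ℝ), 0 < ρ ∧ DifferentiableOn ℂ g (ball 0 ρ) ∧
      (∀ y ∈ ball (0 : ℂ) ρ, g y ∈ ball (0 : ℂ) e ∧ χ (g y) = y) ∧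
      ∃ ρ' : ℝ, 0 < ρ' ∧ ∀ x ∈ ball (0 : ℂ) ρ', g (χ x) = x := by
  have hA : ContDiffAt ℂ 1 χ 0 :=
    (hχ.analyticAt (isOpen_ball.mem_nhds (mem_ball_self hd))).contDiffAt
  have hF := h1.hasFDerivAt_equiv hc
  have hn : (1 : WithTop ℕ∞) ≠ 0 := one_ne_zero
  set E := hA.toOpenPartialHomeomorph χ hF hn with hE
  have hg : ContDiffAt ℂ 1 (hA.localInverse hF hn) (χ 0) := hA.to_localInverse hF hn
  have hgi : hA.localInverse hF hn (χ 0) = 0 := hA.localInverse_apply_image hF hn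
  have hgE : hA.localInverse hF hn = E.symm := rfl
  have hs : (0 : ℂ) ∈ E.source := hA.mem_toOpenPartialHomeomorph_source hF hn
  have ht : χ 0 ∈ E.target := hA.image_mem_toOpenPartialHomeomorph_target hF hn
  rw [hgE] at hg hgi
  rw [h0] at hg hgi ht
  have e1 : ∀ᶠ y in 𝓝 (0 : ℂ), ContDiffAt ℂ 1 E.symm y := hg.eventually (by norm_num)
  have e2 : ∀ᶠ y in 𝓝 (0 : ℂ), y ∈ E.target := E.open_target.mem_nhds ht
  have e3 : ∀ᶠ y in 𝓝 (0 : ℂ), E.symm y ∈ ball (0 : ℂ) e := by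
    have : Tendsto E.symm (𝓝 0) (𝓝 (E.symm 0)) := hg.continuousAt
    rw [hgi] at this
    exact this.eventually (isOpen_ball.mem_nhds (mem_ball_self he))
  obtain ⟨ρ, hρ, hρ'⟩ := Metric.eventually_nhds_iff_ball.1 (e1.and (e2.and e3))
  have e4 : ∀ᶠ x in 𝓝 (0 : ℂ), x ∈ E.source := E.open_source.mem_nhds hs
  obtain ⟨ρ', hρ0', hρ1'⟩ := Metric.eventually_nhds_iff_ball.1 e4
  refine ⟨E.symm, ρ, hρ, fun y hy => ?_, fun y hy => ⟨(hρ' y hy).2.2, ?_⟩, ρ', hρ0',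
    fun x hx => ?_⟩
  · exact ((hρ' y hy).1.differentiableAt one_ne_zero).differentiableWithinAt
  · exact E.right_inv (hρ' y hy).2.1
  · exact E.left_inv (hρ1' x hx)

/-- square root in the lower half plane -/
noncomputable def lsq (z : ℂ) : ℂ := -Complex.I * (-z) ^ (2⁻¹ : ℂ)

theorem lsq_sq {y : ℂ} (hy : y.im < 0) : lsq (y ^ 2) = y := by
  have e : -(y ^ 2) = (Complex.I * y) ^ 2 := by rw [mul_pow, I_sq]; ring
  have h : 0 < (Complex.I * y).re := by simp; linarith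
  unfold lsq
  rw [e, sq_cpow_two_inv h]
  have := I_mul_I
  linear_combination (-y) * this

theorem half_sq (z : ℂ) : (z ^ (2⁻¹ : ℂ)) ^ 2 = z := by
  have := Complex.cpow_nat_inv_pow z (n := 2) (by norm_num)
  exact_mod_cast this

theorem sq_lsq (z : ℂ) : lsq z ^ 2 = z := by
  unfold lsq
  rw [mul_pow, half_sq, neg_sq, I_sq]
  ring

theorem half_re {z : ℂ} (hz : z ∈ slitPlane) : 0 < (z ^ (2⁻¹ : ℂ)).re := by
  have h0 : z ≠ 0 := slitPlane_ne_zero hz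
  have e1 : z ^ (2⁻¹ : ℂ) = exp (log z / 2) := by
    rw [Complex.cpow_def_of_ne_zero h0]; congr 1
  have e3 : (log z / 2).im = arg z / 2 := by
    have := Complex.div_ofNat_im (log z) 2
    rw [← Complex.log_im]
    simpa using this
  rw [e1, Complex.exp_re, e3]
  have h4 := Complex.arg_le_pi z
  have h5 := Complex.neg_pi_lt_arg z
  have h6 : arg z ≠ Real.pi := (mem_slitPlane_iff_arg.1 hz).1
  have h7 : arg z < Real.pi := lt_of_le_of_ne h4 h6
  have : 0 < Real.cos (arg z / 2) :=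
    Real.cos_pos_of_mem_Ioo ⟨by linarith, by linarith⟩
  positivity

theorem lsq_im {z : ℂ} (hz : -z ∈ slitPlane) : (lsq z).im < 0 := by
  have := half_re hz
  unfold lsq
  simp
  linarith

theorem lsq_diff {z : ℂ} (hz : -z ∈ slitPlane) : DifferentiableAt ℂ lsq z := by
  unfold lsq
  apply DifferentiableAt.const_mul
  have h : HasDerivAt (fun w : ℂ => (-w)) (-1) z := hasDerivAt_neg z
  exact (h.cpow_const hz).differentiableAt

theorem PHI_proof : PHI := by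
  intro x₁ κ r s₁ Z tI U I Γ κ' hκ' hΓ
  have hκ := I.hκ
  have hr := I.hr
  obtain ⟨δ, C, hδ, hδκ, hδr, hC, hV⟩ := V_est I
  have hU := I.U0
  have hUn : 0 < ‖U 0 0‖ := norm_pos_iff.2 hU
  obtain ⟨V, hVd⟩ : ∃ V : ℂ → ℂ, V = fun τ => U τ 0 / U 0 0 := ⟨_, rfl⟩
  have hVest : ∀ τ : ℂ, ‖τ‖ < δ → |(V τ).im| ≤ C * |τ.im| ∧ ‖V τ - 1‖ ≤ C * ‖τ‖ := by
    intro τ hτ
    have := hV τ 0 hτ (by simpa using hδ)
    rw [hVd]
    simpa using this
  -- the radius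
  obtain ⟨d, hd0, hd1, hd2⟩ : ∃ d : ℝ, 0 < d ∧ d ≤ δ ∧ C * d ≤ 1 / 4 := by
    refine ⟨min δ (1 / (4 * (C + 1))), lt_min hδ (by positivity), min_le_left _ _, ?_⟩
    calc C * min δ (1 / (4 * (C + 1))) ≤ C * (1 / (4 * (C + 1))) :=
          mul_le_mul_of_nonneg_left (min_le_right _ _) hC
      _ = (C / (C + 1)) * (1 / 4) := by field_simp
      _ ≤ 1 * (1 / 4) := by
          apply mul_le_mul_of_nonneg_right _ (by norm_num)
          rw [div_le_one (by positivity)]; linarith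
      _ = 1 / 4 := one_mul _
  have hVre : ∀ τ : ℂ, ‖τ‖ < d → 3 / 4 ≤ (V τ).re := by
    intro τ hτ
    have h1 : ‖V τ - 1‖ ≤ 1 / 4 := by
      refine (hVest τ (hτ.trans_le hd1)).2.trans ?_
      exact (mul_le_mul_of_nonneg_left hτ.le hC).trans hd2
    have h2 := neg_le_of_abs_le ((abs_re_le_norm (V τ - 1)).trans h1)
    rw [sub_re, one_re] at h2
    linarith
  have hVs : ∀ τ : ℂ, ‖τ‖ < d → V τ ∈ slitPlane := fun τ hτ =>
    Or.inl (by have := hVre τ hτ; linarith)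
  have hVdiff : DifferentiableOn ℂ V (ball 0 d) := by
    rw [hVd]
    apply DifferentiableOn.div_const
    have : DifferentiableOn ℂ (fun τ : ℂ => (τ, (0 : ℂ))) (ball (0 : ℂ) d) := by fun_prop
    refine I.dU.comp this ?_
    intro y hy
    rw [mem_ball_zero_iff] at hy
    exact ⟨by simpa using (by linarith : ‖y‖ < κ), by simpa using hr⟩
  have hV0 : V 0 = 1 := by rw [hVd]; exact div_self hU
  obtain ⟨S, hS⟩ : ∃ S : ℂ → ℂ, S = fun τ => V τ ^ (2⁻¹ : ℂ) := ⟨_, rfl⟩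
  have hS2 : ∀ τ, S τ ^ 2 = V τ := fun τ => by rw [hS]; exact half_sq _
  have hSre : ∀ τ : ℂ, ‖τ‖ < d → 1 / 2 ≤ (S τ).re := by
    intro τ hτ
    have h1 : 0 < (S τ).re := by rw [hS]; exact half_re (hVs τ hτ)
    have h2 := congrArg Complex.re (hS2 τ)
    rw [pow_two, mul_re] at h2
    have h3 := hVre τ hτ
    nlinarith [sq_nonneg (S τ).im]
  have hSim : ∀ τ : ℂ, ‖τ‖ < d → |(S τ).im| ≤ C * |τ.im| := by
    intro τ hτ
    have h1 := hSre τ hτ
    have h2 := congrArg Complex.im (hS2 τ)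
    rw [pow_two, mul_im] at h2
    have h3 := (hVest τ (hτ.trans_le hd1)).1
    have h4 : |(S τ).im| * (2 * (S τ).re) = |(V τ).im| := by
      rw [← h2, show (S τ).re * (S τ).im + (S τ).im * (S τ).re = (S τ).im * (2 * (S τ).re) by ring,
        abs_mul, abs_of_pos (show 0 < 2 * (S τ).re by linarith)]
    nlinarith [abs_nonneg (S τ).im]
  have hSdiff : DifferentiableOn ℂ S (ball 0 d) := by
    intro τ hτ
    have hτ' := mem_ball_zero_iff.1 hτ
    have h1 := (hVdiff τ hτ).differentiableAt (isOpen_ball.mem_nhds hτ)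
    rw [hS]
    exact (h1.cpow_const (hVs τ hτ')).differentiableWithinAt
  obtain ⟨χ, hχ⟩ : ∃ χ : ℂ → ℂ, χ = fun τ => τ * S τ := ⟨_, rfl⟩
  have hχd : DifferentiableOn ℂ χ (ball 0 d) := by
    rw [hχ]
    exact differentiableOn_id.mul hSdiff
  have hχ0 : χ 0 = 0 := by rw [hχ]; simp
  have hS0 : S 0 = 1 := by
    rw [hS]
    simp only [hV0, one_cpow]
  have hχ1 : HasDerivAt χ 1 0 := by
    have h1 := ((hSdiff 0 (mem_ball_self hd0)).differentiableAt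
      (isOpen_ball.mem_nhds (mem_ball_self hd0))).hasDerivAt
    have h2 := (hasDerivAt_id (0 : ℂ)).mul h1
    rw [hS0] at h2
    simp only [id, one_mul, zero_mul, add_zero] at h2
    rw [hχ]
    exact h2
  have hχsq : ∀ τ, χ τ ^ 2 = τ ^ 2 * V τ := fun τ => by
    rw [← hS2 τ, hχ]; ring
  -- sign of the imaginary part
  have hsgn : ∀ τ : ℂ, ‖τ‖ < d → ∃ c : ℝ, 0 < c ∧ (χ τ).im = c * τ.im := by
    intro τ hτ
    have h1 := hSre τ hτ
    have h2 := hSim τ hτ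
    have h3 : (χ τ).im = τ.re * (S τ).im + τ.im * (S τ).re := by
      rw [hχ]; exact mul_im _ _
    rcases eq_or_ne τ.im 0 with h0 | h0
    · refine ⟨1, one_pos, ?_⟩
      rw [h0, abs_zero, mul_zero] at h2
      have h4 : (S τ).im = 0 := abs_eq_zero.1 (le_antisymm h2 (abs_nonneg _))
      rw [h3, h0, h4]; ring
    · refine ⟨(S τ).re + τ.re * (S τ).im / τ.im, ?_, ?_⟩
      · have h5 : |τ.re * (S τ).im / τ.im| ≤ 1 / 4 := by
          rw [abs_div, div_le_iff₀ (abs_pos.2 h0), abs_mul]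
          calc |τ.re| * |(S τ).im| ≤ d * (C * |τ.im|) :=
                mul_le_mul ((abs_re_le_norm τ).trans hτ.le) h2 (abs_nonneg _) hd0.le
            _ = (C * d) * |τ.im| := by ring
            _ ≤ 1 / 4 * |τ.im| := mul_le_mul_of_nonneg_right hd2 (abs_nonneg _)
        have := neg_le_of_abs_le h5
        linarith
      · rw [h3]
        field_simp
        ring
  -- the inverse
  obtain ⟨g, ρ, hρ, hgd, hg1, ρ', hρ', hg2⟩ :=
    loc_inv hd0 hχd hχ0 one_ne_zero hχ1 (min d κ') (lt_min hd0 hκ')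
  have hgim : ∀ y ∈ ball (0 : ℂ) ρ, y.im < 0 → (g y).im < 0 := by
    intro y hy hyi
    obtain ⟨h1, h2⟩ := hg1 y hy
    obtain ⟨c, hc, h3⟩ := hsgn (g y) ((mem_ball_zero_iff.1 h1).trans_le (min_le_left _ _))
    rw [h2] at h3
    by_contra hcon
    push Not at hcon
    have := mul_nonneg hc.le hcon
    linarith
  -- NS0
  have hR0 : 0 < ρ ^ 2 * ‖U 0 0‖ := by positivity
  obtain ⟨δ₀, hδ₀, hns⟩ := NS0_proof x₁ κ r s₁ Z tI U I (ρ ^ 2 * ‖U 0 0‖) 1 hR0 one_pos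
  refine ⟨ρ ^ 2 * ‖U 0 0‖, min (min δ₀ ρ') d,
    fun ζ => Γ (x₁ + g (lsq ((ζ - s₁) / U 0 0))), hR0, lt_min (lt_min hδ₀ hρ') hd0, ?_, ?_⟩
  · have hmem : ∀ ζ ∈ SB s₁ (U 0 0) (ρ ^ 2 * ‖U 0 0‖), -((ζ - s₁) / U 0 0) ∈ slitPlane ∧
        lsq ((ζ - s₁) / U 0 0) ∈ ball (0 : ℂ) ρ := by
      rintro ζ ⟨h1, h2⟩
      constructor
      · by_contra hcon
        rw [mem_slitPlane_iff] at hcon
        push Not at hcon
        obtain ⟨h3, h4⟩ := hcon
        rw [neg_re] at h3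
        rw [neg_im, neg_eq_zero] at h4
        apply h2 ((ζ - s₁) / U 0 0).re (by linarith)
        have h5 : ((((ζ - s₁) / U 0 0).re : ℝ) : ℂ) = (ζ - s₁) / U 0 0 := by
          apply Complex.ext
          · simp
          · rw [ofReal_im, h4]
        rw [h5, div_mul_cancel₀ _ hU]
      · rw [mem_ball_zero_iff]
        have h3 : ‖lsq ((ζ - s₁) / U 0 0)‖ ^ 2 < ρ ^ 2 := by
          rw [← norm_pow, sq_lsq, norm_div, div_lt_iff₀ hUn]
          exact h1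
        exact lt_of_pow_lt_pow_left₀ 2 hρ.le h3
    have hc1 : DifferentiableOn ℂ (fun ζ => lsq ((ζ - s₁) / U 0 0))
        (SB s₁ (U 0 0) (ρ ^ 2 * ‖U 0 0‖)) := by
      intro ζ hζ
      have h1 := lsq_diff (hmem ζ hζ).1
      have h2 : DifferentiableAt ℂ (fun ζ : ℂ => (ζ - s₁) / U 0 0) ζ := by fun_prop
      exact (DifferentiableAt.comp ζ h1 h2).differentiableWithinAt
    have hc2 : DifferentiableOn ℂ (fun ζ => x₁ + g (lsq ((ζ - s₁) / U 0 0)))
        (SB s₁ (U 0 0) (ρ ^ 2 * ‖U 0 0‖)) :=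
      (hgd.comp hc1 (fun ζ hζ => (hmem ζ hζ).2)).const_add x₁
    refine hΓ.comp hc2 ?_
    intro ζ hζ
    obtain ⟨h1, h2⟩ := hmem ζ hζ
    have h3 := (hg1 _ h2).1
    have h4 := hgim _ h2 (lsq_im h1)
    refine ⟨?_, ?_⟩
    · show ‖x₁ + g (lsq ((ζ - s₁) / U 0 0)) - x₁‖ < κ'
      rw [add_sub_cancel_left]
      exact (mem_ball_zero_iff.1 h3).trans_le (min_le_right _ _)
    · show (x₁ + g (lsq ((ζ - s₁) / U 0 0))).im < x₁.im
      rw [add_im]
      linarith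
  · intro x hx hxi
    have hx1 : ‖x - x₁‖ < δ₀ := hx.trans_le ((min_le_left _ _).trans (min_le_left _ _))
    have hx2 : ‖x - x₁‖ < ρ' := hx.trans_le ((min_le_left _ _).trans (min_le_right _ _))
    have hx3 : ‖x - x₁‖ < d := hx.trans_le (min_le_right _ _)
    refine ⟨hns x 0 hx1 (by simpa using hδ₀) (by simpa using hxi), ?_⟩
    obtain ⟨τ, hτ⟩ : ∃ τ, τ = x - x₁ := ⟨_, rfl⟩
    rw [← hτ] at hx2 hx3
    have hxτ : x = x₁ + τ := by rw [hτ]; ring
    have hτi : τ.im < 0 := by rw [hτ, sub_im]; linarith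
    have hloc := I.loc τ 0 (by linarith) (by simpa using hr)
    rw [I.I0, ← hxτ] at hloc
    have h1 : (Z x 0 - s₁) / U 0 0 = χ τ ^ 2 := by
      rw [hloc, hχsq, hVd]
      field_simp
      ring
    obtain ⟨c, hc, h2⟩ := hsgn τ hx3
    have h3 : (χ τ).im < 0 := by rw [h2]; exact mul_neg_of_pos_of_neg hc hτi
    show Γ (x₁ + g (lsq ((Z x 0 - s₁) / U 0 0))) = Γ x
    rw [h1, lsq_sq h3, hg2 τ (mem_ball_zero_iff.2 hx2), ← hxτ]

end Vale.Agent.P097.H500
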